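import Claimed.Agent.R322.Lin.QGrad

/-!
# CO Proposition 6.1: estimates for ONE normal cylinder (leaves Q0-Q6)

Constants depend only on `m n Q R R₁ C`; the tube height `h₀` does NOT depend on `C`.  Sources: `Tube.stat_cyl`, `Tube.lift_trace`,
`Tube.normal_trace`, `Tube.tube_deriv`, `Tube.block_facts`, `Tube.intM_le`, `Tube.cyl_carrier`
and the product rule for `tdiv`.
-/

set_option autoImplicit false

open scoped ENNReal ContDiff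
open MeasureTheory

namespace Claimed.Agent.R322.Lin

open Claimed.Agent.R322.Tube Claimed.Agent.R322.Fn

variable {m n : ℕ}

/-- [Q0] mass bound in the cylinder and `∫ e dμ ≤ C a²`, `∫ √e dμ ≤ C' a`. -/
theorem q_mass (m n Q : ℕ) (R : ℝ) (hR : 0 < R) :
    ∃ h₀ : ℝ, 0 < h₀ ∧ ∀ C : ℝ, ∃ ε₁ C' : ℝ, 0 < ε₁ ∧ 0 < C' ∧ ∀ (N : NCyl m n) (a ε : ℝ), N.Q = Q → N.h ≤ h₀ →
      0 < a → a ≤ 1 → 0 ≤ ε → ε ≤ ε₁ → Small N R a C ε →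
      N.μ Set.univ ≤ ENNReal.ofReal C' ∧
      ∫ X, tilt N.u (N.W.P X) X ∂N.μ ≤ C' * a ^ 2 ∧
      ∫ X, Real.sqrt (tilt N.u (N.W.P X) X) ∂N.μ ≤ C' * a := by
  obtain ⟨h₀, hh₀, H⟩ := exists_kit m n Q R hR
  refine ⟨h₀, hh₀, fun C => ?_⟩
  obtain ⟨Cm, hCm, H⟩ := H C
  refine ⟨1 / 2, Cm, by norm_num, hCm, fun N a ε hQ hh ha ha1 hε hε1 hS => ?_⟩
  have K := H N a ε hQ hh ha ha1 hε hε1 hS
  exact ⟨K.mass_ennreal, K.tilt_le, K.sqrt_le⟩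

/-- [Q6] the four families of functionals are Radon functionals on `B_R` with bounds `C' a²`;
`bet` is symmetric. -/
theorem q_radon (m n Q : ℕ) (R : ℝ) (hR : 0 < R) :
    ∃ h₀ : ℝ, 0 < h₀ ∧ ∀ C : ℝ, ∃ ε₁ C' : ℝ, 0 < ε₁ ∧ 0 < C' ∧ ∀ (N : NCyl m n) (a ε : ℝ), N.Q = Q → N.h ≤ h₀ →
      0 < a → a ≤ 1 → 0 ≤ ε → ε ≤ ε₁ → Small N R a C ε →
      IsRadon (Metric.ball 0 R) (hsq N) ∧ (∀ i, IsRadon (Metric.ball 0 R) (flux N i)) ∧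
      (∀ i j, IsRadon (Metric.ball 0 R) (bet N i j)) ∧ IsRadon (Metric.ball 0 R) N.intM ∧
      IsRadon (Metric.ball 0 R) (til N) ∧
      (∀ i j g, bet N i j g = bet N j i g) ∧
      ∀ (g : E m → ℝ) (B : ℝ), IsTest (Metric.ball 0 R) g → (∀ y, |g y| ≤ B) →
        |hsq N g| ≤ C' * a ^ 2 * B ∧ (∀ i, |flux N i g| ≤ C' * a ^ 2 * B) ∧
        (∀ i j, |bet N i j g| ≤ C' * a ^ 2 * B) ∧ |N.intM g| ≤ C' * a ^ 2 * B ∧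
        |til N g| ≤ C' * a ^ 2 * B := by
  obtain ⟨h₀, hh₀, H⟩ := exists_kit m n Q R hR
  refine ⟨h₀, hh₀, fun C => ?_⟩
  obtain ⟨Cm, hCm, H⟩ := H C
  refine ⟨1 / 2, Cm * (C ^ 2 + 2 * |C| + 3), by norm_num, by positivity,
    fun N a ε hQ hh ha ha1 hε hε1 hS => ?_⟩
  have K := H N a ε hQ hh ha ha1 hε hε1 hS
  refine ⟨K.ok.radon_weight K.hsqw.1 _, fun i => K.ok.radon_weight (K.fluxw i).1 _,
    fun i j => K.ok.radon_weight (K.betw i j).1 _, K.isRadon_intM _,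
    K.ok.radon_weight K.int_tilt _, fun i j g => ?_, fun g B hg hB => ?_⟩
  · unfold bet
    refine integral_congr_ae (Filter.Eventually.of_forall fun X => ?_)
    simp only
    rw [inner_Bop_symm N.u X (N.W.P_proj X)]
  · have hB0 : 0 ≤ B := (abs_nonneg _).trans (hB 0)
    have hc := abs_nonneg C
    have ha2 : 0 ≤ Cm * a ^ 2 * B := by positivity
    have key : ∀ t I : ℝ, I ≤ t * Cm * a ^ 2 → t ≤ C ^ 2 + 2 * |C| + 3 →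
        B * I ≤ Cm * (C ^ 2 + 2 * |C| + 3) * a ^ 2 * B := by
      intro t I hI ht
      calc B * I ≤ B * (t * Cm * a ^ 2) := mul_le_mul_of_nonneg_left hI hB0
        _ = t * (Cm * a ^ 2 * B) := by ring
        _ ≤ (C ^ 2 + 2 * |C| + 3) * (Cm * a ^ 2 * B) := mul_le_mul_of_nonneg_right ht ha2
        _ = _ := by ring
    refine ⟨?_, fun i => ?_, fun i j => ?_, ?_, ?_⟩
    · exact (K.ok.abs_weight_le K.hsqw.1 hB).trans (key _ _ K.hsqw.2 (by linarith))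
    · exact (K.ok.abs_weight_le (K.fluxw i).1 hB).trans
        (key _ _ (K.fluxw i).2 (by nlinarith [sq_nonneg C]))
    · exact (K.ok.abs_weight_le (K.betw i j).1 hB).trans
        (key _ _ (K.betw i j).2 (by nlinarith [sq_nonneg C]))
    · exact (K.abs_intM_le hg hB).trans
        (key 1 _ (by rw [one_mul]) (by nlinarith [sq_nonneg C]))
    · exact (K.ok.abs_weight_le K.int_tilt hB).trans
        (key 1 _ (by rw [one_mul]; exact K.tilw) (by nlinarith [sq_nonneg C]))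

/-- [Q5] positivity of the block matrix before the limit. -/
theorem q_psd (m n Q : ℕ) (R : ℝ) (hR : 0 < R) :
    ∃ h₀ : ℝ, 0 < h₀ ∧ ∀ C : ℝ, ∃ ε₁ : ℝ, 0 < ε₁ ∧ ∀ (N : NCyl m n) (a ε : ℝ), N.Q = Q → N.h ≤ h₀ →
      0 < a → a ≤ 1 → 0 ≤ ε → ε ≤ ε₁ → Small N R a C ε →
      ∀ (α : E m → ℝ) (b : Fin m → E m → ℝ), IsTest (Metric.ball 0 R) α →
        (∀ i, IsTest (Metric.ball 0 R) (b i)) →
        0 ≤ hsq N (α * α) + 2 * ∑ i, flux N i (α * b i) + ∑ i, ∑ j, bet N i j (b i * b j) := by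
  obtain ⟨h₀, hh₀, H⟩ := exists_kit m n Q R hR
  refine ⟨h₀, hh₀, fun C => ?_⟩
  obtain ⟨Cm, hCm, H⟩ := H C
  exact ⟨1 / 2, by norm_num, fun N a ε hQ hh ha ha1 hε hε1 hS α b hα hb =>
    (H N a ε hQ hh ha ha1 hε hε1 hS).psd α b hα hb⟩

/-- [Q4] `e = tr B` in the coordinate frame, up to `O(ε) e`. -/
theorem q_trace (m n Q : ℕ) (R : ℝ) (hR : 0 < R) :
    ∃ h₀ : ℝ, 0 < h₀ ∧ ∀ C : ℝ, ∃ ε₁ C' : ℝ, 0 < ε₁ ∧ 0 < C' ∧ ∀ (N : NCyl m n) (a ε : ℝ), N.Q = Q → N.h ≤ h₀ →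
      0 < a → a ≤ 1 → 0 ≤ ε → ε ≤ ε₁ → Small N R a C ε →
      ∀ (g : E m → ℝ) (B : ℝ), IsTest (Metric.ball 0 R) g → (∀ y, |g y| ≤ B) →
        |til N g - ∑ i, bet N i i g| ≤ C' * ε * a ^ 2 * B := by
  obtain ⟨h₀, hh₀, H⟩ := exists_kit m n Q R hR
  refine ⟨h₀, hh₀, fun C => ?_⟩
  obtain ⟨Cm, hCm, H⟩ := H C
  refine ⟨1 / 2, 9 / 4 * (m + 1) * Cm, by norm_num, by positivity,
    fun N a ε hQ hh ha ha1 hε hε1 hS g B hg hB => ?_⟩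
  refine ((H N a ε hQ hh ha ha1 hε hε1 hS).trace hg.cont hB).trans ?_
  have hB0 : 0 ≤ B := (abs_nonneg _).trans (hB 0)
  have h1 : ε ^ 2 ≤ ε := by nlinarith
  have h2 : (m : ℝ) * ε ^ 2 ≤ (m + 1) * ε := by nlinarith [Nat.cast_nonneg (α := ℝ) m]
  calc B * (9 / 4 * m * ε ^ 2 * (Cm * a ^ 2)) = (m * ε ^ 2) * (9 / 4 * Cm * a ^ 2 * B) := by ring
    _ ≤ ((m + 1) * ε) * (9 / 4 * Cm * a ^ 2 * B) :=
        mul_le_mul_of_nonneg_right h2 (by positivity)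
    _ = _ := by ring

/-- [Q1] horizontal first variation (`lift` of `X`): the stress identity up to `O(ε a²)`. -/
theorem q_stress (m n Q : ℕ) (hm : 1 ≤ m) (R R₁ : ℝ) (hR₁ : 0 < R₁) (hR : R₁ < R) :
    ∃ h₀ : ℝ, 0 < h₀ ∧ ∀ C : ℝ, ∃ ε₁ C' : ℝ, 0 < ε₁ ∧ 0 < C' ∧ ∀ (N : NCyl m n) (a ε : ℝ), N.Q = Q → N.h ≤ h₀ →
      0 < a → a ≤ 1 → 0 ≤ ε → ε ≤ ε₁ → Small N R a C ε →
      ∀ (X : Fin m → E m → ℝ) (A : ℝ), (∀ i, ContDiff ℝ ∞ (X i)) →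
        (∀ i, tsupport (X i) ⊆ Metric.closedBall 0 R₁) →
        (∀ i y, |X i y| ≤ A ∧ ‖fderiv ℝ (X i) y‖ ≤ A) →
        |N.intM (fun y => ∑ i, pd i (X i) y) - ∑ i, ∑ j, bet N i j (pd j (X i))|
          ≤ C' * ε * a ^ 2 * A := by
  obtain ⟨h₀, Cg, hh₀, hCg, H⟩ := exists_kits m n Q R (hR₁.trans hR)
  obtain ⟨CL, hCL0, hCL⟩ := exists_dlog_vdens_bound m n
  refine ⟨h₀, hh₀, fun C => ?_⟩
  obtain ⟨Cm, hCm, H⟩ := H C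
  refine ⟨1 / 2, (3 * (9 / 4 * m + 3 / 2 + 7 * Cg * |C| + Cg * |C| ^ 2) + CL) * m * Cm + 1,
    by norm_num, by positivity, fun N a ε hQ hh ha ha1 hε hε1 hS X A hX hs hA => ?_⟩
  obtain ⟨K, v⟩ := H N a ε hQ hh ha ha1 hε hε1 hS
  refine (q_stress_core K v hCg hCL0.le hCL hR ⟨hX, hs, hA⟩).trans ?_
  have hA0 : 0 ≤ A := (abs_nonneg _).trans (hA ⟨0, hm⟩ 0).1
  have : 0 ≤ ε * a ^ 2 * A := by positivity
  nlinarith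

/-- [Q2] horizontal first variation with the multiplier `|z|²`: `∇ν = 2 f` up to `O((ε + a) a²)`. -/
theorem q_grad (m n Q : ℕ) (hm : 1 ≤ m) (R R₁ : ℝ) (hR₁ : 0 < R₁) (hR : R₁ < R) :
    ∃ h₀ : ℝ, 0 < h₀ ∧ ∀ C : ℝ, ∃ ε₁ C' : ℝ, 0 < ε₁ ∧ 0 < C' ∧ ∀ (N : NCyl m n) (a ε : ℝ), N.Q = Q → N.h ≤ h₀ →
      0 < a → a ≤ 1 → 0 ≤ ε → ε ≤ ε₁ → Small N R a C ε →
      ∀ (X : Fin m → E m → ℝ) (A : ℝ), (∀ i, ContDiff ℝ ∞ (X i)) →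
        (∀ i, tsupport (X i) ⊆ Metric.closedBall 0 R₁) →
        (∀ i y, |X i y| ≤ A ∧ ‖fderiv ℝ (X i) y‖ ≤ A) →
        |hsq N (fun y => ∑ i, pd i (X i) y) + 2 * ∑ i, flux N i (X i)|
          ≤ C' * (ε + a) * a ^ 2 * A := by
  obtain ⟨h₀, Cg, hh₀, hCg, H⟩ := exists_kits m n Q R (hR₁.trans hR)
  obtain ⟨CL, hCL0, hCL⟩ := exists_dlog_vdens_bound m n
  refine ⟨h₀, hh₀, fun C => ?_⟩
  obtain ⟨Cm, hCm, H⟩ := H C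
  refine ⟨1 / 2, 3 * (|C| ^ 2 * CL + 8 * Cg * |C| ^ 2 + 4 * |C| ^ 2 + 27 / 4 * |C|) * m * Cm + 1,
    by norm_num, by positivity, fun N a ε hQ hh ha ha1 hε hε1 hS X A hX hs hA => ?_⟩
  obtain ⟨K, v⟩ := H N a ε hQ hh ha ha1 hε hε1 hS
  refine (q_grad_core K v hCg hCL0.le hCL hR ⟨hX, hs, hA⟩).trans ?_
  have hA0 : 0 ≤ A := (abs_nonneg _).trans (hA ⟨0, hm⟩ 0).1
  have : 0 ≤ (ε + a) * a ^ 2 * A := by positivity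
  nlinarith

/-- [Q3] normal first variation with `φ z`: `div f = d₀` up to `O(ε a²)`. -/
theorem q_div (m n Q : ℕ) (R R₁ : ℝ) (hR₁ : 0 < R₁) (hR : R₁ < R) :
    ∃ h₀ : ℝ, 0 < h₀ ∧ ∀ C : ℝ, ∃ ε₁ C' : ℝ, 0 < ε₁ ∧ 0 < C' ∧ ∀ (N : NCyl m n) (a ε : ℝ), N.Q = Q → N.h ≤ h₀ →
      0 < a → a ≤ 1 → 0 ≤ ε → ε ≤ ε₁ → Small N R a C ε →
      ∀ (φ : E m → ℝ) (A : ℝ), ContDiff ℝ ∞ φ → tsupport φ ⊆ Metric.closedBall 0 R₁ →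
        (∀ y, |φ y| ≤ A ∧ ‖fderiv ℝ φ y‖ ≤ A) →
        |til N φ + ∑ i, flux N i (pd i φ)| ≤ C' * ε * a ^ 2 * A := by
  obtain ⟨h₀, Cg, hh₀, hCg, H⟩ := exists_kits m n Q R (hR₁.trans hR)
  refine ⟨h₀, hh₀, fun C => ?_⟩
  obtain ⟨Cm, hCm, H⟩ := H C
  refine ⟨1 / 2, 3 * (|C| + Cg * |C| ^ 2 + Cg * |C| + 9 / 4 * |C| + 1) * Cm, by norm_num,
    by positivity, fun N a ε hQ hh ha ha1 hε hε1 hS φ A hφ hs hA => ?_⟩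
  obtain ⟨K, v⟩ := H N a ε hQ hh ha ha1 hε hε1 hS
  refine (q_div_core K v hCg hR hφ hs hA).trans ?_
  have hA0 : 0 ≤ A := (abs_nonneg _).trans (hA 0).1
  have : 0 ≤ A * ε * Cm * a ^ 2 := by positivity
  nlinarith

end Claimed.Agent.R322.Lin
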