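import Claimed.Agent.R322.Lin.Sign
import Claimed.Agent.R322.Pack058

/-!
# CO Proposition 6.1: the normalised functionals of one cylinder (second half of the glue `Lin.core`)

`exists_norm1`: from the leaves `q_*` (`Lin/Quant.lean`) and `s_*` (`Lin/Sign.lean`): for every
`e > 0` there are a unit `t` and a smallness `ε` such that the functionals of a cylinder which is
`Small … ε`, with `a ≤ ε` and bounded geometry in the units `t`, divided by `a²`, satisfy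
`Norm1 … e`.  Choice of the parameters: `t` with `2 (CQ + 1) C_u t² ≤ e / 3`, then `ε ≤ t³`
(so that `t⁻⁴ ε² ≤ t²`), `C ε ≤ e / 3` for the constants of the leaves, `om a ≤ e / 3` for `a ≤ ε`.
-/

set_option autoImplicit false

open scoped ENNReal ContDiff
open MeasureTheory Filter Topology

namespace Claimed.Agent.R322.Lin

open Claimed.Agent.R322.Tube Claimed.Agent.R322.Fn

variable {m n : ℕ}

theorem exists_pos_le_list (l : List ℝ) (h : ∀ x ∈ l, 0 < x) :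
    ∃ ε : ℝ, 0 < ε ∧ ∀ x ∈ l, ε ≤ x := by
  induction l with
  | nil => exact ⟨1, one_pos, by simp⟩
  | cons a l ih =>
    obtain ⟨ε, hε, hl⟩ := ih fun x hx => h x (List.mem_cons_of_mem _ hx)
    refine ⟨min a ε, lt_min (h a List.mem_cons_self) hε, fun x hx => ?_⟩
    rcases List.mem_cons.1 hx with rfl | hx
    · exact min_le_left _ _
    · exact (min_le_right _ _).trans (hl x hx)

theorem refGraphU_mono {t K ε ε' : ℝ} {J J' : ℕ} {u : E m → E n} (h : RefGraphU t J K ε u)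
    (hJ : J' ≤ J) (hε : ε ≤ ε') : RefGraphU t J' K ε' u :=
  ⟨h.smooth.of_le (by exact_mod_cast hJ), fun y => (h.slope y).trans hε,
    fun j h2 hj y => h.bound j h2 (hj.trans hJ) y⟩

theorem scale_abs {a x y c : ℝ} (ha : 0 < a) (h : |x| ≤ y) (hy : y = c * a ^ 2) :
    |(a ^ 2)⁻¹ * x| ≤ c := by
  have h2 : 0 < a ^ 2 := by positivity
  rw [abs_mul, abs_of_pos (inv_pos.2 h2), inv_mul_le_iff₀ h2]
  linarith

theorem scale_le {a x y c : ℝ} (ha : 0 < a) (h : x ≤ y) (hy : y = c * a ^ 2) :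
    (a ^ 2)⁻¹ * x ≤ c := by
  have h2 : 0 < a ^ 2 := by positivity
  rw [inv_mul_le_iff₀ h2]
  linarith

/-- the geometric error in the units `t`, for `ε ≤ t³`, and the total mass -/
theorem mass_units {N : NCyl m n} {R a C ε Cu t : ℝ} (hS : Small N R a C ε) (hCu : 0 < Cu)
    (ht0 : 0 < t) (ht1 : t ≤ 1) (hε0 : 0 ≤ ε) (hεt : ε ≤ t ^ 3)
    (hU : (N.LmU t) (Metric.ball 0 R) ≤
      ENNReal.ofReal (Cu * (t ^ 2 + (t ^ 4)⁻¹ * ε ^ 2) * a ^ 2)) :
    (N.LmU t) (Metric.ball 0 R) ≤ ENNReal.ofReal (2 * Cu * t ^ 2 * a ^ 2) ∧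
    (N.Mabs + N.Dm + N.LmU t) (Metric.ball 0 R) ≤
      ENNReal.ofReal ((max C 0 + 2 * Cu) * a ^ 2) := by
  have h1 : (t ^ 4)⁻¹ * ε ^ 2 ≤ t ^ 2 := by
    rw [inv_mul_le_iff₀ (by positivity)]
    calc ε ^ 2 ≤ (t ^ 3) ^ 2 := by gcongr
      _ = t ^ 4 * t ^ 2 := by ring
  have h2 : Cu * (t ^ 2 + (t ^ 4)⁻¹ * ε ^ 2) ≤ 2 * Cu * t ^ 2 := by nlinarith
  have first : (N.LmU t) (Metric.ball 0 R) ≤ ENNReal.ofReal (2 * Cu * t ^ 2 * a ^ 2) :=
    hU.trans (ENNReal.ofReal_le_ofReal (mul_le_mul_of_nonneg_right h2 (sq_nonneg a)))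
  refine ⟨first, ?_⟩
  have hm := hS.mass
  simp only [Measure.add_apply] at hm ⊢
  have ht2 : t ^ 2 ≤ 1 := by nlinarith
  calc N.Mabs (Metric.ball 0 R) + N.Dm (Metric.ball 0 R) + (N.LmU t) (Metric.ball 0 R)
      ≤ ENNReal.ofReal (C * a ^ 2) + ENNReal.ofReal (2 * Cu * t ^ 2 * a ^ 2) :=
        add_le_add (by rw [add_comm]; exact hm) first
    _ ≤ ENNReal.ofReal (max C 0 * a ^ 2) + ENNReal.ofReal (2 * Cu * a ^ 2) := by
        refine add_le_add (ENNReal.ofReal_le_ofReal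
          (mul_le_mul_of_nonneg_right (le_max_left _ _) (sq_nonneg a)))
          (ENNReal.ofReal_le_ofReal (mul_le_mul_of_nonneg_right ?_ (sq_nonneg a)))
        nlinarith
    _ = ENNReal.ofReal ((max C 0 + 2 * Cu) * a ^ 2) := by
        rw [← ENNReal.ofReal_add (by positivity) (by positivity)]
        ring_nf

theorem sign_arith {M D L T Bt om a A e Ct ε CQ Cu t : ℝ} (hA : 0 ≤ A)
    (G : 2 * M - D - CQ * L ≤ om * a ^ 2 * A) (hD : D = T)
    (hT : |T - Bt| ≤ Ct * ε * a ^ 2 * A) (hL : |L| ≤ A * (2 * Cu * t ^ 2 * a ^ 2))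
    (hom : om ≤ e / 3) (hCt : Ct * ε ≤ e / 3) (hCQ0 : 0 ≤ CQ)
    (hK : CQ * (2 * Cu * t ^ 2) ≤ e / 3) : 2 * M - Bt ≤ e * A * a ^ 2 := by
  have hP : 0 ≤ a ^ 2 * A := by positivity
  have h1 : om * a ^ 2 * A ≤ e / 3 * (a ^ 2 * A) := by
    rw [mul_assoc]
    exact mul_le_mul_of_nonneg_right hom hP
  have h2 : T - Bt ≤ e / 3 * (a ^ 2 * A) :=
    calc T - Bt ≤ |T - Bt| := le_abs_self _
      _ ≤ Ct * ε * (a ^ 2 * A) := by rw [← mul_assoc]; exact hT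
      _ ≤ e / 3 * (a ^ 2 * A) := mul_le_mul_of_nonneg_right hCt hP
  have h3 : CQ * L ≤ e / 3 * (a ^ 2 * A) :=
    calc CQ * L ≤ CQ * |L| := mul_le_mul_of_nonneg_left (le_abs_self _) hCQ0
      _ ≤ CQ * (A * (2 * Cu * t ^ 2 * a ^ 2)) := mul_le_mul_of_nonneg_left hL hCQ0
      _ = CQ * (2 * Cu * t ^ 2) * (a ^ 2 * A) := by ring
      _ ≤ e / 3 * (a ^ 2 * A) := mul_le_mul_of_nonneg_right hK hP
  subst hD
  nlinarith

theorem abs_arith {M D L T Bt a A e Ct ε C₂ Cu t : ℝ} (hA : 0 ≤ A)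
    (G : |M| ≤ C₂ * (D + L + A * (e / 3) * a ^ 2)) (hD : D = T)
    (hT : |T - Bt| ≤ Ct * ε * a ^ 2 * A) (hL : |L| ≤ A * (2 * Cu * t ^ 2 * a ^ 2))
    (hCt : Ct * ε ≤ e / 3) (hC₂ : 0 ≤ C₂) (hK : 2 * Cu * t ^ 2 ≤ e / 3) :
    |M| ≤ C₂ * (Bt + e * A * a ^ 2) := by
  have hP : 0 ≤ a ^ 2 * A := by positivity
  have h2 : T - Bt ≤ e / 3 * (a ^ 2 * A) :=
    calc T - Bt ≤ |T - Bt| := le_abs_self _
      _ ≤ Ct * ε * (a ^ 2 * A) := by rw [← mul_assoc]; exact hT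
      _ ≤ e / 3 * (a ^ 2 * A) := mul_le_mul_of_nonneg_right hCt hP
  have h3 : L ≤ e / 3 * (a ^ 2 * A) :=
    calc L ≤ |L| := le_abs_self _
      _ ≤ A * (2 * Cu * t ^ 2 * a ^ 2) := hL
      _ = 2 * Cu * t ^ 2 * (a ^ 2 * A) := by ring
      _ ≤ e / 3 * (a ^ 2 * A) := mul_le_mul_of_nonneg_right hK hP
  subst hD
  refine G.trans (mul_le_mul_of_nonneg_left ?_ hC₂)
  nlinarith

theorem exists_unit {K e : ℝ} (hK : 0 < K) (he : 0 < e) :
    ∃ t : ℝ, 0 < t ∧ t ≤ 1 ∧ K * t ^ 2 ≤ e / 3 := by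
  refine ⟨min 1 (e / (3 * K)), lt_min one_pos (by positivity), min_le_left _ _, ?_⟩
  set t := min 1 (e / (3 * K)) with ht
  have h0 : 0 < t := lt_min one_pos (by positivity)
  have h1 : t ≤ 1 := min_le_left _ _
  have h2 : t ≤ e / (3 * K) := min_le_right _ _
  have h3 : t ^ 2 ≤ t := by nlinarith
  have h4 : K * t ≤ e / 3 := by
    rw [le_div_iff₀ (by positivity)] at h2
    linarith
  exact (mul_le_mul_of_nonneg_left h3 hK.le).trans h4

theorem param_arith {CQ Cu t e : ℝ} (hCQ : 0 ≤ CQ) (hCu : 0 ≤ Cu)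
    (h : 2 * (CQ + 1) * Cu * t ^ 2 ≤ e / 3) :
    CQ * (2 * Cu * t ^ 2) ≤ e / 3 ∧ 2 * Cu * t ^ 2 ≤ e / 3 := by
  have h1 : 0 ≤ Cu * t ^ 2 := by positivity
  have h2 : 0 ≤ CQ * (Cu * t ^ 2) := by positivity
  constructor <;> nlinarith

theorem eps_arith {Ct Cs Cg Cd ε a e : ℝ} (hCt : 0 < Ct) (hCs : 0 < Cs) (hCg : 0 < Cg)
    (hCd : 0 < Cd) (hε : 0 < ε) (ha : a ≤ ε) (_he : 0 < e)
    (h : ε ≤ e / (3 * (Ct + Cs + Cg + Cd))) :
    Ct * ε ≤ e / 3 ∧ Cg * (ε + a) ≤ e ∧ (Cd + Ct) * ε ≤ e ∧ Cs * ε ≤ e := by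
  rw [le_div_iff₀ (by positivity)] at h
  have h1 : 0 < Ct * ε := by positivity
  have h2 : 0 < Cs * ε := by positivity
  have h3 : 0 < Cg * ε := by positivity
  have h4 : 0 < Cd * ε := by positivity
  have h5 : Cg * a ≤ Cg * ε := mul_le_mul_of_nonneg_left ha hCg.le
  refine ⟨by nlinarith, by nlinarith, by nlinarith, by nlinarith⟩

theorem exists_om_small {om : ℝ → ℝ} (hom : Tendsto om (𝓝[>] (0 : ℝ)) (𝓝 0)) {e : ℝ} (he : 0 < e) :
    ∃ δ : ℝ, 0 < δ ∧ ∀ a : ℝ, 0 < a → a ≤ δ → om a ≤ e / 3 := by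
  have h1 : ∀ᶠ a in 𝓝[>] (0 : ℝ), om a < e / 3 := hom.eventually (Iio_mem_nhds (by positivity))
  rw [eventually_nhdsWithin_iff, Metric.eventually_nhds_iff] at h1
  obtain ⟨δ, hδ, h⟩ := h1
  refine ⟨δ / 2, by positivity, fun a ha haδ => (h ?_ ha).le⟩
  rw [Real.dist_eq, sub_zero, abs_of_pos ha]
  linarith

/-- **The normalised functionals of one small cylinder.** -/
theorem exists_norm1 (hm : 1 ≤ m) (hn : 1 ≤ n) (Q : ℕ) (hQ : 1 ≤ Q) (R R₁ : ℝ) (hR₁ : 0 < R₁)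
    (hR : R₁ < R) :
    ∃ (J₀ : ℕ) (ε₀ h₀ C₂ : ℝ), 0 < ε₀ ∧ 0 < h₀ ∧ ∀ C : ℝ, ∃ Cb : ℝ, ∀ e : ℝ, 0 < e →
      ∃ t ε : ℝ, 0 < t ∧ 0 < ε ∧ ∀ (N : NCyl m n) (a : ℝ), N.Q = Q → N.h ≤ h₀ → 0 < a → a ≤ ε →
        Small N R a C ε → RefGraphU t J₀ 1 ε₀ N.u →
        Norm1 R R₁ (fun g => (a ^ 2)⁻¹ * hsq N g) (fun g => (a ^ 2)⁻¹ * N.intM g)
          (fun i g => (a ^ 2)⁻¹ * flux N i g) (fun i j g => (a ^ 2)⁻¹ * bet N i j g) Cb C₂ e := by
  have hR0 : 0 < R := hR₁.trans hR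
  obtain ⟨h1, hh1, Hrad⟩ := q_radon m n Q R hR0
  obtain ⟨h2, hh2, Hpsd⟩ := q_psd m n Q R hR0
  obtain ⟨h3, hh3, Htr⟩ := q_trace m n Q R hR0
  obtain ⟨h4, hh4, Hst⟩ := q_stress m n Q hm R R₁ hR₁ hR
  obtain ⟨h5, hh5, Hgr⟩ := q_grad m n Q hm R R₁ hR₁ hR
  obtain ⟨h6, hh6, Hdv⟩ := q_div m n Q R R₁ hR₁ hR
  obtain ⟨h7, hh7, Htil⟩ := s_til m n Q R hR0
  obtain ⟨h8, hh8, Hun⟩ := s_units m n Q R hR0
  obtain ⟨J1, e1, h9, CQ, he1, hh9, hCQ, Hsg⟩ := s_sign m n Q hm hn hQ R R₁ hR₁ hR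
  obtain ⟨J2, e2, h10, C₂, he2, hh10, hC₂, Hab⟩ := s_abs m n Q hm hn hQ R R₁ hR₁ hR
  obtain ⟨h₀, hh₀, hle⟩ := exists_pos_le_list [h1, h2, h3, h4, h5, h6, h7, h8, h9, h10]
    (by simp only [List.mem_cons, List.not_mem_nil, or_false]
        rintro x (rfl | rfl | rfl | rfl | rfl | rfl | rfl | rfl | rfl | rfl) <;> assumption)
  refine ⟨max J1 J2, min e1 e2, h₀, C₂, lt_min he1 he2, hh₀, fun C => ?_⟩
  obtain ⟨r1, Cb, hr1, hCb, Hrad⟩ := Hrad C
  obtain ⟨r2, hr2, Hpsd⟩ := Hpsd C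
  obtain ⟨r3, Ct, hr3, hCt, Htr⟩ := Htr C
  obtain ⟨r4, Cs, hr4, hCs, Hst⟩ := Hst C
  obtain ⟨r5, Cg, hr5, hCg, Hgr⟩ := Hgr C
  obtain ⟨r6, Cd, hr6, hCd, Hdv⟩ := Hdv C
  obtain ⟨r7, hr7, Htil⟩ := Htil C
  obtain ⟨r8, Cu, hr8, hCu, Hun⟩ := Hun C
  obtain ⟨om, hom, Hsg⟩ := Hsg (max C 0 + 2 * Cu)
  refine ⟨Cb, fun e he => ?_⟩
  obtain ⟨a₀, ha₀, Hab⟩ := Hab (max C 0 + 2 * Cu) (e / 3) (by positivity)
  -- the unit `t`
  have hK : 0 < 2 * (CQ + 1) * Cu := by positivity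
  obtain ⟨t, ht0, ht1, htK⟩ := exists_unit hK he
  obtain ⟨hK1, hK2⟩ := param_arith hCQ.le hCu.le htK
  -- smallness of `om`
  obtain ⟨δ, hδ, homδ⟩ := exists_om_small hom he
  have hCtot : 0 < Ct + Cs + Cg + Cd := by positivity
  obtain ⟨ε, hε, hεle⟩ := exists_pos_le_list
    [r1, r2, r3, r4, r5, r6, r7, r8, t ^ 3, e / (3 * (Ct + Cs + Cg + Cd)), δ, a₀, 1]
    (by simp only [List.mem_cons, List.not_mem_nil, or_false]
        rintro x (rfl | rfl | rfl | rfl | rfl | rfl | rfl | rfl | rfl | rfl | rfl | rfl | rfl)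
        all_goals first | assumption | positivity)
  refine ⟨t, ε, ht0, hε, fun N a hNQ hNh ha haε hS hG => ?_⟩
  have ha1 : a ≤ 1 := haε.trans (hεle 1 (by simp))
  obtain ⟨hεCt, hεCg, hεCd, hεCs⟩ := eps_arith hCt hCs hCg hCd hε haε he
    (hεle (e / (3 * (Ct + Cs + Cg + Cd))) (by simp))
  have hs : 0 < (a ^ 2)⁻¹ := by positivity
  have F1 := Hrad N a ε hNQ (hNh.trans (hle h1 (by simp))) ha ha1 hε.le (hεle r1 (by simp)) hS
  have F2 := Hpsd N a ε hNQ (hNh.trans (hle h2 (by simp))) ha ha1 hε.le (hεle r2 (by simp)) hS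
  have F3 := Htr N a ε hNQ (hNh.trans (hle h3 (by simp))) ha ha1 hε.le (hεle r3 (by simp)) hS
  have F4 := Hst N a ε hNQ (hNh.trans (hle h4 (by simp))) ha ha1 hε.le (hεle r4 (by simp)) hS
  have F5 := Hgr N a ε hNQ (hNh.trans (hle h5 (by simp))) ha ha1 hε.le (hεle r5 (by simp)) hS
  have F6 := Hdv N a ε hNQ (hNh.trans (hle h6 (by simp))) ha ha1 hε.le (hεle r6 (by simp)) hS
  have F7 := Htil N a ε hNQ (hNh.trans (hle h7 (by simp))) ha ha1 hε.le (hεle r7 (by simp)) hS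
  have F8 := Hun N a ε hNQ (hNh.trans (hle h8 (by simp))) ha ha1 hε.le (hεle r8 (by simp)) hS
    t ht0 ht1
  obtain ⟨U1, U2⟩ := mass_units hS hCu ht0 ht1 hε.le (hεle (t ^ 3) (by simp)) F8
  have hheight : ∀ X ∈ N.W.support, X ∈ Cyl N.u N.Ω N.h →
      ‖zz N.u X‖ ≤ (max C 0 + 2 * Cu) * a := fun X hX hXc =>
    (hS.height X hX hXc).trans (mul_le_mul_of_nonneg_right
      ((le_max_left C 0).trans (by linarith)) ha.le)
  have F9 := Hsg N a t hNQ hS.Ω_eq (hNh.trans (hle h9 (by simp))) ha ha1 ht0 ht1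
    (refGraphU_mono hG (le_max_left _ _) (min_le_left _ _)) U2 hheight
  have F10 := Hab N a t hNQ hS.Ω_eq (hNh.trans (hle h10 (by simp))) ha (haε.trans (hεle a₀ (by simp)))
    ht0 ht1 (refGraphU_mono hG (le_max_right _ _) (min_le_right _ _)) U2
  have hLm : ((N.LmU t) (Metric.ball 0 R)).toReal ≤ 2 * Cu * t ^ 2 * a ^ 2 :=
    ENNReal.toReal_le_of_le_ofReal (by positivity) U1
  -- common part of `sign` and `abs`
  have common : ∀ (g : E m → ℝ) (A : ℝ), Continuous g → (∀ y, 0 ≤ g y ∧ g y ≤ A) →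
      tsupport g ⊆ Metric.closedBall 0 R₁ → 0 ≤ A ∧ ∫ y, g y ∂N.Dm = til N g ∧
        |til N g - ∑ i, bet N i i g| ≤ Ct * ε * a ^ 2 * A ∧
        |∫ y, g y ∂(N.LmU t)| ≤ A * (2 * Cu * t ^ 2 * a ^ 2) := by
    intro g A hgc hg hsupp
    have hT : IsTest (Metric.ball 0 R) g := isTest_of_closedBall hR hgc hsupp
    have hA : 0 ≤ A := (hg 0).1.trans (hg 0).2
    have hB : ∀ y, |g y| ≤ A := fun y => by rw [abs_of_nonneg (hg y).1]; exact (hg y).2
    exact ⟨hA, (F7 g hT).1, F3 g A hT hB,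
      ((F7 g hT).2 t A ht0 hB).trans (mul_le_mul_of_nonneg_left hLm hA)⟩
  have i0 : Fin m := ⟨0, hm⟩
  exact
    { radon_nu := F1.1.const_mul _
      radon_mm := F1.2.2.2.1.const_mul _
      radon_f := fun i => (F1.2.1 i).const_mul _
      radon_be := fun i j => (F1.2.2.1 i j).const_mul _
      bd := fun g B hg hB => by
        obtain ⟨b1, b2, b3, b4, -⟩ := F1.2.2.2.2.2.2 g B hg hB
        exact ⟨scale_abs ha b1 (by ring), scale_abs ha b4 (by ring),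
          fun i => scale_abs ha (b2 i) (by ring), fun i j => scale_abs ha (b3 i j) (by ring)⟩
      symm := fun i j g => by rw [F1.2.2.2.2.2.1 i j g]
      psd := fun α b hα hb => by
        have := mul_nonneg hs.le (F2 α b hα hb)
        simp only [← Finset.mul_sum]
        linarith
      grad := fun X A hX hsupp hA => by
        have hA0 : 0 ≤ A := (abs_nonneg _).trans (hA i0 0).1
        have := scale_abs (c := Cg * (ε + a) * A) ha (F5 X A hX hsupp hA) (by ring)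
        simp only [← Finset.mul_sum]
        rw [show (a ^ 2)⁻¹ * hsq N (fun y => ∑ i, pd i (X i) y) +
          2 * ((a ^ 2)⁻¹ * ∑ i, flux N i (X i)) = (a ^ 2)⁻¹ *
          (hsq N (fun y => ∑ i, pd i (X i) y) + 2 * ∑ i, flux N i (X i)) by ring]
        exact this.trans (mul_le_mul_of_nonneg_right hεCg hA0)
      div := fun φ A hφ hsupp hA => by
        have hA0 : 0 ≤ A := (abs_nonneg _).trans (hA 0).1
        have hT : IsTest (Metric.ball 0 R) φ := isTest_of_closedBall hR hφ.continuous hsupp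
        have d1 := F6 φ A hφ hsupp hA
        have d2 := F3 φ A hT fun y => (hA y).1
        have d3 : |∑ i, bet N i i φ + ∑ i, flux N i (pd i φ)| ≤
            Cd * ε * a ^ 2 * A + Ct * ε * a ^ 2 * A := by
          have e1 : ∑ i, bet N i i φ + ∑ i, flux N i (pd i φ) =
              (til N φ + ∑ i, flux N i (pd i φ)) - (til N φ - ∑ i, bet N i i φ) := by ring
          rw [e1]
          exact (abs_sub _ _).trans (add_le_add d1 d2)
        have := scale_abs (c := (Cd + Ct) * ε * A) ha d3 (by ring)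
        simp only [← Finset.mul_sum, ← mul_add]
        exact this.trans (mul_le_mul_of_nonneg_right hεCd hA0)
      stress := fun X A hX hsupp hA => by
        have hA0 : 0 ≤ A := (abs_nonneg _).trans (hA i0 0).1
        have := scale_abs (c := Cs * ε * A) ha (F4 X A hX hsupp hA) (by ring)
        simp only [← Finset.mul_sum, ← mul_sub]
        exact this.trans (mul_le_mul_of_nonneg_right hεCs hA0)
      sign := fun g A hgc hg hLip hsupp => by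
        obtain ⟨hA0, c1, c2, c3⟩ := common g A hgc hg hsupp
        have := sign_arith hA0 (F9 g A hg hLip hsupp) c1 c2 c3
          (homδ a ha (haε.trans (hεle δ (by simp)))) hεCt hCQ.le hK1
        have := scale_le (c := e * A) ha this (by ring)
        simp only [← Finset.mul_sum]
        linarith
      abs := fun g A hgc hg hLip hsupp => by
        obtain ⟨hA0, c1, c2, c3⟩ := common g A hgc hg hsupp
        have := abs_arith hA0 (F10 g A hg hLip hsupp) c1 c2 c3 hεCt hC₂.le hK2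
        simp only [← Finset.mul_sum]
        refine scale_abs ha this ?_
        field_simp }

end Claimed.Agent.R322.Lin
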