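import Claimed.Agent.R322.Lin.Sign
import Claimed.Agent.R322.Pack007
import Claimed.Agent.R322.Lin.CoreAux

/-!
# CO Proposition 6.1: passage to the limit

`core` is stated on a ball of arbitrary radius, for an arbitrary sequence `LinHyp`
(it is used a second time in AE Lemma 7.2).

Plan of `core` (pure glue, no geometry):
1. `small_eventually`: for every `ε > 0`, eventually `Small (H.N i) R (H.a i) H.C ε` and `a i ≤ 1`.
2. by `q_radon` the `1 + m + m² + 1` sequences are Radon functionals with uniform bounds from some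
   index on; shift the sequence and apply `subseq_fin`.
3. every identity/inequality of `Red.LinTuple` is the limit of `q_psd, q_grad, q_div + q_trace,
   q_stress` (errors `C' ε A` with `ε` arbitrary).
4. `sign_le`: for smooth `g ≥ 0`, `δ > 0`: fix `t` with `CQ C' t² sup g ≤ δ`; then `s_units`,
   `s_sign`, `s_til`, `q_trace`; then `pos_of_smooth` for `Λ = ∑ β_ii - 2 𝔪`.
5. `abs_le`: the same with `s_abs` (first `lam`, then `t`, then `i`), for `Λ = C₂ ∑ β_ii ± 𝔪`.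
-/

set_option autoImplicit false

open scoped ENNReal ContDiff Topology
open MeasureTheory Convolution ContinuousLinearMap

namespace Claimed.Agent.R322.Lin

open Claimed.Agent.R322.Tube Claimed.Agent.R322.Fn

variable {m n : ℕ}

/-- [F1] common subsequence for a finite family of sequences of Radon functionals
(= `Fn.exists_subseq_wconv_family`). -/
theorem subseq_fin {k : ℕ} {ι : Type} [Finite ι] (Ω : Set (E k)) (hΩ : IsOpen Ω)
    (L : ι → ℕ → (E k → ℝ) → ℝ) (hR : ∀ a j, IsRadon Ω (L a j))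
    (hB : ∀ a, ∀ K : Set (E k), IsCompact K → K ⊆ Ω → ∃ C : ℝ, ∀ j g, IsTest Ω g →
      tsupport g ⊆ K → ∀ B : ℝ, (∀ x, |g x| ≤ B) → |L a j g| ≤ C * B) :
    ∃ (φ : ℕ → ℕ) (Linf : ι → (E k → ℝ) → ℝ), StrictMono φ ∧ (∀ a, IsRadon Ω (Linf a)) ∧
      ∀ a, WConv Ω (fun j => L a (φ j)) (Linf a) :=
  Fn.exists_subseq_wconv_family hΩ L hR hB

/-- mollification of a nonnegative continuous test function by nonnegative smooth tests. -/
theorem exists_stest_nonneg_approx {k : ℕ} {Ω : Set (E k)} (hΩ : IsOpen Ω) {g : E k → ℝ}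
    (hg : IsTest Ω g) (h0 : ∀ x, 0 ≤ g x) :
    ∃ (K : Set (E k)) (G : ℕ → E k → ℝ), IsCompact K ∧ K ⊆ Ω ∧ tsupport g ⊆ K ∧
      (∀ j, IsSTest Ω (G j)) ∧ (∀ j, tsupport (G j) ⊆ K) ∧ (∀ j x, 0 ≤ G j x) ∧
      (∀ j y, |G j y - g y| ≤ 1 / ((j : ℝ) + 1)) := by
  obtain ⟨δ, hδ, hδU⟩ := hg.cpt.isCompact.exists_cthickening_subset_open hΩ hg.sub
  set K := Metric.cthickening δ (tsupport g) with hKdef
  have hK : IsCompact K := hg.cpt.isCompact.cthickening
  have hXu : UniformContinuous g := hg.cpt.uniformContinuous_of_continuous hg.cont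
  have hr : ∀ j : ℕ, ∃ r : ℝ, 0 < r ∧ r ≤ δ ∧
      (∀ x y, dist x y < r → dist (g x) (g y) ≤ 1 / ((j : ℝ) + 1)) := by
    intro j
    have hj : (0 : ℝ) < 1 / ((j : ℝ) + 1) := by positivity
    obtain ⟨r₁, hr₁, h₁⟩ := Metric.uniformContinuous_iff.1 hXu _ hj
    refine ⟨min δ r₁, by positivity, min_le_left _ _, fun x y hxy => ?_⟩
    exact (h₁ (hxy.trans_le (min_le_right _ _))).le
  choose r hr0 hrδ hrX using hr
  let φ : ∀ j : ℕ, ContDiffBump (0 : E k) := fun j =>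
    ⟨r j / 2, r j, half_pos (hr0 j), half_lt_self (hr0 j)⟩
  have hφr : ∀ j, (φ j).rOut = r j := fun j => rfl
  have hsm : ∀ j, ContDiff ℝ ∞ ((φ j).normed volume ⋆[lsmul ℝ ℝ, volume] g) := fun j =>
    (φ j).hasCompactSupport_normed.contDiff_convolution_left _ (φ j).contDiff_normed
      hg.cont.locallyIntegrable
  have hz : ∀ j x, x ∉ K → ((φ j).normed volume ⋆[lsmul ℝ ℝ, volume] g) x = 0 := by
    intro j x hxK
    have hz : ∀ y ∈ Metric.ball x (φ j).rOut, g y = 0 := by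
      intro y hy
      by_contra hne
      apply hxK
      have hy' : y ∈ tsupport g := subset_tsupport g hne
      apply Metric.mem_cthickening_of_dist_le x y δ _ hy'
      rw [dist_comm]
      exact (Metric.mem_ball.1 hy).le.trans (hrδ j)
    have hx0 : g x = 0 := hz x (Metric.mem_ball_self (φ j).rOut_pos)
    have := (φ j).normed_convolution_eq_right (μ := (volume : Measure (E k))) (x₀ := x) (g := g)
      (fun y hy => by rw [hz y hy, hx0])
    exact this.trans hx0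
  refine ⟨K, fun j => (φ j).normed volume ⋆[lsmul ℝ ℝ, volume] g, hK, hδU,
    Metric.self_subset_cthickening _, fun j => ?_, fun j => ?_, fun j x => ?_, fun j x => ?_⟩
  · exact { isTest_of_forall (hsm j).continuous hK hδU (hz j) with smooth := hsm j }
  · exact tsupport_subset_of_forall hK.isClosed (hz j)
  · show 0 ≤ ((φ j).normed volume ⋆[lsmul ℝ ℝ, volume] g) x
    rw [convolution_def]
    refine integral_nonneg fun t => ?_
    simp only [lsmul_apply, smul_eq_mul]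
    exact mul_nonneg ((φ j).nonneg_normed _) (h0 _)
  · rw [← Real.dist_eq]
    exact (φ j).dist_normed_convolution_le hg.cont.aestronglyMeasurable
      (fun y hy => hrX j y x (Metric.mem_ball.1 hy))

/-- [F2] a Radon functional which is nonnegative on smooth nonnegative tests is nonnegative
(mollification: `g * ρ_δ → g` uniformly with supports in a fixed compact subset of `Ω`). -/
theorem pos_of_smooth {k : ℕ} (Ω : Set (E k)) (hΩ : IsOpen Ω) (L : (E k → ℝ) → ℝ)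
    (hL : IsRadon Ω L) (h : ∀ g, IsSTest Ω g → (∀ x, 0 ≤ g x) → 0 ≤ L g) : IsPos Ω L := by
  intro g hg h0
  obtain ⟨K, G, hK, hKΩ, hgK, hG, hGK, hG0, hd⟩ := exists_stest_nonneg_approx hΩ hg h0
  have hlim : ∀ ε : ℝ, 0 < ε → ∀ᶠ j : ℕ in Filter.atTop, 1 / ((j : ℝ) + 1) ≤ ε := fun ε hε =>
    (tendsto_one_div_add_atTop_nhds_zero_nat.eventually (gt_mem_nhds hε)).mono fun j hj => hj.le
  have ht : Filter.Tendsto (fun j => L (G j)) Filter.atTop (𝓝 (L g)) :=
    hL.tendsto hK hKΩ (Filter.Eventually.of_forall fun j => ⟨(hG j).toIsTest, hGK j⟩) hg hgK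
      fun ε hε => (hlim ε hε).mono fun j hj y => (hd j y).trans hj
  exact ge_of_tendsto' ht fun j => h _ (hG j) (hG0 j)

/-- [F3] restriction of the domain, linear combinations. -/
theorem radon_tools {k : ℕ} (Ω : Set (E k)) :
    (∀ (Ω' : Set (E k)) (L : (E k → ℝ) → ℝ), Ω' ⊆ Ω → IsRadon Ω L → IsRadon Ω' L) ∧
    (∀ (L L' : (E k → ℝ) → ℝ), IsRadon Ω L → IsRadon Ω L' → IsRadon Ω (fun g => L g + L' g)) ∧
    (∀ (c : ℝ) (L : (E k → ℝ) → ℝ), IsRadon Ω L → IsRadon Ω (fun g => c * L g)) ∧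
    (∀ (ι : Type) (s : Finset ι) (L : ι → (E k → ℝ) → ℝ), (∀ a ∈ s, IsRadon Ω (L a)) →
      IsRadon Ω (fun g => ∑ a ∈ s, L a g)) :=
  ⟨fun _ _ hsub h => h.mono hsub, fun _ _ h h' => h.add' h', fun c _ h => h.const_mul c,
    fun _ s _ h => IsRadon.sum' s h⟩

/-- step 1 -/
theorem small_eventually {Q J : ℕ} {hc R : ℝ} (H : LinHyp m n Q J hc R) (hJ : 4 ≤ J) (ε : ℝ)
    (hε : 0 < ε) : ∀ᶠ i in Filter.atTop, Small (H.N i) R (H.a i) H.C ε ∧ H.a i ≤ 1 := by
  have h3 : ∀ᶠ i in Filter.atTop, H.a i ≤ 1 := H.a_lim.eventually (Iic_mem_nhds one_pos)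
  filter_upwards [H.u_conv ε hε, H.curv ε hε, h3] with i a1 a2 a3
  refine ⟨⟨H.N_Ω i, (H.u_smooth i).of_le (by exact_mod_cast hJ),
    fun j _ hj y => a1 j (hj.trans hJ) y, H.mass_bd i, fun X hX hXc => ?_, a2⟩, a3⟩
  rw [H.N_Ω i, H.N_h i] at hXc
  exact H.height_bd i X hX hXc

/-- eventually the reference graphs have bounded geometry in the fixed units `t`
(`1 ≤ J` is needed for the slope: the statement is false for `J = 0`). -/
theorem refU_eventually {Q J : ℕ} {hc R : ℝ} (H : LinHyp m n Q J hc R) (hJ1 : 1 ≤ J) (J' : ℕ)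
    (hJ : J' ≤ J) (t ε₀ : ℝ) (ht : 0 < t) (hε₀ : 0 < ε₀) :
    ∀ᶠ i in Filter.atTop, RefGraphU t J' 1 ε₀ (H.N i).u := by
  obtain ⟨δ, hδ, hδ1⟩ : ∃ δ : ℝ, 0 < δ ∧ ∀ j : ℕ, j ≤ J → δ ≤ 1 * t ^ (j - 1) := by
    refine ⟨min 1 t ^ J, by positivity, fun j hj => ?_⟩
    rw [one_mul]
    have h1 : min 1 t ^ J ≤ min 1 t ^ (j - 1) :=
      pow_le_pow_of_le_one (by positivity) (min_le_left _ _) (by omega)
    exact h1.trans (pow_le_pow_left₀ (by positivity) (min_le_right _ _) _)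
  filter_upwards [H.u_conv ε₀ hε₀, H.u_conv δ hδ] with i a1 a2
  refine ⟨(H.u_smooth i).of_le (by exact_mod_cast hJ), fun y => ?_, fun j _ hj y => ?_⟩
  · rw [← norm_iteratedFDeriv_one]
    exact a1 1 hJ1 y
  · exact (a2 j (hj.trans hJ) y).trans (hδ1 j (hj.trans hJ))

/-- **CO Proposition 6.1** on `B_{R₁} ⊂ B_R`. -/
theorem core (hm : 1 ≤ m) (hn : 1 ≤ n) (Q : ℕ) (hQ : 1 ≤ Q) (R R₁ : ℝ) (hR₁ : 0 < R₁)
    (hR : R₁ < R) :
    ∃ (J₀ : ℕ) (h₀ : ℝ), 0 < h₀ ∧ ∀ (J : ℕ) (hc : ℝ), J₀ ≤ J → 0 < hc → hc ≤ h₀ →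
      ∀ H : LinHyp m n Q J hc R,
        (∃ (g : E m → ℝ) (c : ℝ), IsTest (Metric.ball 0 R₁) g ∧ 0 < c ∧
          ∀ᶠ i in Filter.atTop, c ≤ H.nuSeq i g) →
        ∃ (φ : ℕ → ℕ) (T : Red.LinTuple m (Metric.ball (0 : E m) R₁)), StrictMono φ ∧
          WConv (Metric.ball 0 R₁) (fun i => H.nuSeq (φ i)) T.nu ∧
          WConv (Metric.ball 0 R₁) (fun i => H.mmSeq (φ i)) T.mm ∧
          (∀ a, WConv (Metric.ball 0 R₁) (fun i => H.fSeq a (φ i)) (T.f a)) ∧
          (∀ a b, WConv (Metric.ball 0 R₁) (fun i => H.betaSeq a b (φ i)) (T.beta a b)) := by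
  obtain ⟨J₀, ε₀, h₀, C₂, hε₀, hh₀, Hn⟩ := exists_norm1 (m := m) (n := n) hm hn Q hQ R R₁ hR₁ hR
  refine ⟨max J₀ 4, h₀, hh₀, fun J hc hJ hc0 hc1 H hlow => ?_⟩
  obtain ⟨Cb, Hn⟩ := Hn H.C
  refine limit_tuple hR H.nuSeq H.mmSeq H.fSeq H.betaSeq Cb C₂ (fun e he => ?_)
    (fun L hL h => pos_of_smooth _ Metric.isOpen_ball L hL h) hlow
  obtain ⟨t, ε, ht, hε, Hn⟩ := Hn e he
  have h1 := small_eventually H ((le_max_right _ _).trans hJ) ε hε
  have h2 := refU_eventually H (le_trans (by norm_num) ((le_max_right _ _).trans hJ)) J₀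
    ((le_max_left _ _).trans hJ) t ε₀ ht hε₀
  have h3 : ∀ᶠ i in Filter.atTop, H.a i ≤ ε := H.a_lim.eventually (Iic_mem_nhds hε)
  filter_upwards [h1, h2, h3] with i a1 a2 a3
  exact Hn (H.N i) (H.a i) (H.N_Q i) ((H.N_h i).le.trans hc1) (H.a_pos i) a3 a1.1 a2

/-- the continuous cutoff `1` on `B_3`, `0` outside `B_{7/2}` -/
noncomputable def cut34 (m : ℕ) (y : E m) : ℝ := max 0 (min 1 (7 - 2 * ‖y‖))

theorem cut34_nonneg (y : E m) : 0 ≤ cut34 m y := le_max_left _ _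

theorem cut34_le_one (y : E m) : cut34 m y ≤ 1 := max_le zero_le_one (min_le_left _ _)

theorem cut34_eq_one {y : E m} (hy : ‖y‖ ≤ 3) : cut34 m y = 1 := by
  unfold cut34
  rw [min_eq_left (by linarith), max_eq_right zero_le_one]

theorem cut34_eq_zero {y : E m} (hy : 7 / 2 ≤ ‖y‖) : cut34 m y = 0 := by
  unfold cut34
  exact max_eq_left ((min_le_right _ _).trans (by linarith))

theorem cut34_continuous : Continuous (cut34 m) := by
  unfold cut34
  fun_prop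

theorem cut34_isTest : IsTest (Metric.ball (0 : E m) 4) (cut34 m) := by
  refine isTest_of_forall cut34_continuous (isCompact_closedBall (0 : E m) (7 / 2))
    (Metric.closedBall_subset_ball (by norm_num)) fun y hy => cut34_eq_zero ?_
  rw [Metric.mem_closedBall, dist_zero_right, not_le] at hy
  exact hy.le

/-- the comparison for one cylinder -/
theorem hsq_cut34_lower (m n : ℕ) : ∃ h₀ : ℝ, 0 < h₀ ∧ ∀ (N : NCyl m n), Geo 1 N.u → N.h ≤ h₀ →
    N.Ω = Metric.ball 0 8 →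
    ∫ X in {X | npr N.u X ∈ Metric.ball (0 : E m) 3}, ‖zz N.u X‖ ^ 2 ∂N.μ ≤ hsq N (cut34 m) := by
  obtain ⟨h₁, hh₁, H₁⟩ := cyl_carrier m n
  obtain ⟨h₂, hh₂, H₂⟩ := tube_deriv m n
  refine ⟨min h₁ h₂, lt_min hh₁ hh₂, fun N hG hh hΩ => ?_⟩
  obtain ⟨hopen, -, hfin⟩ := H₁ 1 N hG (hh.trans (min_le_left _ _))
  obtain ⟨-, hnpr, hzz, -⟩ := H₂ 1 N.u hG
  have hsub : Cyl N.u N.Ω N.h ⊆ Tub N.u h₂ := fun X hX =>
    ⟨npr N.u X, hX.2.trans_le (hh.trans (min_le_right _ _))⟩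
  have hcn : ContinuousOn (npr N.u) (Cyl N.u N.Ω N.h) := hnpr.continuousOn.mono hsub
  have hcz : ContinuousOn (zz N.u) (Cyl N.u N.Ω N.h) := hzz.continuousOn.mono hsub
  have hmeas : MeasurableSet (Cyl N.u N.Ω N.h) := hopen.measurableSet
  set F : E (m + n) → ℝ := fun X => cut34 m (npr N.u X) * ‖zz N.u X‖ ^ 2 with hF
  have hFc : ContinuousOn F (Cyl N.u N.Ω N.h) :=
    (cut34_continuous.comp_continuousOn hcn).mul (hcz.norm.pow 2)
  have hFm : AEStronglyMeasurable F N.μ := hFc.aestronglyMeasurable hmeas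
  have hF0 : ∀ X, 0 ≤ F X := fun X => mul_nonneg (cut34_nonneg _) (by positivity)
  have hK : N.μ {X | npr N.u X ∈ Metric.closedBall (0 : E m) (7 / 2)} < ⊤ :=
    hfin _ (isCompact_closedBall _ _) (by
      rw [hΩ]; exact Metric.closedBall_subset_ball (by norm_num))
  have hFi : Integrable F N.μ := by
    have h1 : IntegrableOn F {X | npr N.u X ∈ Metric.closedBall (0 : E m) (7 / 2)} N.μ := by
      refine Measure.integrableOn_of_bounded (M := N.h ^ 2) hK.ne hFm (ae_restrict_of_ae ?_)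
      have : ∀ᵐ X ∂N.μ, X ∈ Cyl N.u N.Ω N.h := ae_restrict_mem hmeas
      filter_upwards [this] with X hX
      rw [Real.norm_of_nonneg (hF0 X)]
      calc F X ≤ 1 * ‖zz N.u X‖ ^ 2 :=
            mul_le_mul_of_nonneg_right (cut34_le_one _) (by positivity)
        _ ≤ N.h ^ 2 := by
            rw [one_mul]
            exact pow_le_pow_left₀ (norm_nonneg _) hX.2.le 2
    refine h1.integrable_of_forall_notMem_eq_zero fun X hX => ?_
    have : 7 / 2 ≤ ‖npr N.u X‖ := by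
      rw [Set.mem_ofPred_eq, Metric.mem_closedBall, dist_zero_right, not_le] at hX
      exact hX.le
    simp [hF, cut34_eq_zero this]
  have hA : IsOpen ({X | npr N.u X ∈ Metric.ball (0 : E m) 3} ∩ Cyl N.u N.Ω N.h) := by
    rw [Set.inter_comm]
    exact hcn.isOpen_inter_preimage hopen Metric.isOpen_ball
  unfold hsq
  show _ ≤ ∫ X, F X ∂N.μ
  have e1 : N.μ.restrict {X | npr N.u X ∈ Metric.ball (0 : E m) 3}
      = N.W.μ.restrict ({X | npr N.u X ∈ Metric.ball (0 : E m) 3} ∩ Cyl N.u N.Ω N.h) :=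
    Measure.restrict_restrict' hmeas
  rw [e1]
  have e2 : ∫ X in {X | npr N.u X ∈ Metric.ball (0 : E m) 3} ∩ Cyl N.u N.Ω N.h,
      ‖zz N.u X‖ ^ 2 ∂N.W.μ
      = ∫ X in {X | npr N.u X ∈ Metric.ball (0 : E m) 3} ∩ Cyl N.u N.Ω N.h, F X ∂N.W.μ := by
    refine setIntegral_congr_fun hA.measurableSet fun X hX => ?_
    have : ‖npr N.u X‖ ≤ 3 := by
      have := hX.1
      rw [Set.mem_ofPred_eq, Metric.mem_ball, dist_zero_right] at this
      exact this.le
    simp [hF, cut34_eq_one this]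
  rw [e2]
  exact setIntegral_mono_set hFi (Filter.Eventually.of_forall hF0)
    (Filter.Eventually.of_forall Set.inter_subset_right)

/-- the lower bound of the second moment in the form needed by `core`
(`g` = a continuous cutoff, `1` on `B_3`, supported in `B_4`; integrability of `g(π X) |z|²` from
`Tube.cyl_carrier` and `Tube.tube_deriv`, valid as soon as `Geo 1 (D.N i).u`). -/
theorem centered_lower (m n : ℕ) : ∃ h₀ : ℝ, 0 < h₀ ∧ ∀ {s : ℝ} {Q J : ℕ} {hc : ℝ}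
    (D : Blow.CenteredData m n s Q J hc), 4 ≤ J → hc ≤ h₀ →
    ∃ (g : E m → ℝ) (c : ℝ), IsTest (Metric.ball 0 4) g ∧ 0 < c ∧
      ∀ᶠ i in Filter.atTop, c ≤ (ofCentered D).nuSeq i g := by
  obtain ⟨h₀, hh₀, H⟩ := hsq_cut34_lower m n
  refine ⟨h₀, hh₀, fun {s Q J hc} D hJ hc1 => ⟨cut34 m, D.c, cut34_isTest, D.c_pos, ?_⟩⟩
  filter_upwards [D.u_conv (1 / 2) (by norm_num)] with i hi
  have hG : Geo 1 (D.N i).u :=
    ⟨(D.u_smooth i).of_le (by exact_mod_cast hJ), fun y => by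
      rw [← norm_iteratedFDeriv_one]; exact hi 1 (by omega) y,
      fun y => (hi 2 (by omega) y).trans (by norm_num),
      fun y => (hi 3 (by omega) y).trans (by norm_num), le_rfl⟩
  have h1 := H (D.N i) hG ((D.N_h i).le.trans hc1) (D.N_Ω i)
  have h2 := (D.moment2 i).trans h1
  show D.c ≤ (D.a i ^ 2)⁻¹ * hsq (D.N i) (cut34 m)
  rw [le_inv_mul_iff₀ (pow_pos (D.a_pos i) 2), mul_comm]
  exact h2

/-- **CO Proposition 6.1 for the centered blow-up** (= `R322.lin`). -/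
theorem main (hm : 1 ≤ m) (hn : 1 ≤ n) (Q : ℕ) (hQ : 1 ≤ Q) :
    ∃ (J₀ : ℕ) (h₀ : ℝ), 0 < h₀ ∧ ∀ (s : ℝ) (J : ℕ) (hc : ℝ), J₀ ≤ J → 0 < hc → hc ≤ h₀ →
      ∀ D : Blow.CenteredData m n s Q J hc,
        ∃ (φ : ℕ → ℕ) (T : Red.LinTuple m (Metric.ball (0 : E m) 4)), StrictMono φ ∧
          WConv (Metric.ball 0 4) (fun i => D.nuSeq (φ i)) T.nu ∧
          WConv (Metric.ball 0 4) (fun i => D.mmSeq (φ i)) T.mm := by
  obtain ⟨J₀, h₀, hh₀, H⟩ := core (m := m) (n := n) hm hn Q hQ 8 4 (by norm_num) (by norm_num)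
  obtain ⟨h₁, hh₁, H₁⟩ := centered_lower m n
  refine ⟨max J₀ 4, min h₀ h₁, lt_min hh₀ hh₁, fun s J hc hJ hc0 hc1 D => ?_⟩
  obtain ⟨φ, T, hφ, h1, h2, -, -⟩ := H J hc ((le_max_left _ _).trans hJ) hc0
    (hc1.trans (min_le_left _ _)) (ofCentered D)
    (H₁ D ((le_max_right _ _).trans hJ) (hc1.trans (min_le_right _ _)))
  exact ⟨φ, T, hφ, h1, h2⟩

end Claimed.Agent.R322.Lin
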