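import Claimed.Agent.R322.Pack048
import Claimed.Agent.R322.Pack013

/-!
# Lifted tangent fields on a normal cylinder (helper253)

* `vecF X` : the chart field with components `X i`;
* `lift_eq`, `lk_contDiffOn_lift` : regularity of `lift u Xc` on the cylinder;
* `norm_nabS_le`, `abs_trc_Bop_nabS_sub_le` : `B : ∇^S X = ∑ ∂_j X^i B[∂_i,∂_j] + O(ε e)`.
-/

set_option autoImplicit false

open scoped ENNReal ContDiff Topology
open MeasureTheory

namespace Claimed.Agent.R322.Lin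

open Claimed.Agent.R322.Tube Claimed.Agent.R322.Fn

local notation "adj" => ContinuousLinearMap.adjoint
local notation "𝟙" => ContinuousLinearMap.id ℝ _

variable {m n : ℕ}

/-! ### fields from components -/

/-- the chart field with components `X i` -/
noncomputable def vecF (X : Fin m → E m → ℝ) (y : E m) : E m :=
  ∑ i, X i y • EuclideanSpace.single i (1 : ℝ)

section VecF

variable {X : Fin m → E m → ℝ}

theorem contDiff_vecF {k : ℕ∞ω} (hX : ∀ i, ContDiff ℝ k (X i)) : ContDiff ℝ k (vecF X) := by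
  unfold vecF
  exact ContDiff.sum fun i _ => (hX i).smul contDiff_const

theorem hasFDerivAt_vecF {y : E m} (hX : ∀ i, DifferentiableAt ℝ (X i) y) :
    HasFDerivAt (vecF X)
      (∑ i, (fderiv ℝ (X i) y).smulRight (EuclideanSpace.single i (1 : ℝ))) y := by
  unfold vecF
  exact HasFDerivAt.fun_sum fun i _ => (hX i).hasFDerivAt.smul_const _

theorem fderiv_vecF_apply {y : E m} (hX : ∀ i, DifferentiableAt ℝ (X i) y) (v : E m) :
    fderiv ℝ (vecF X) y v = ∑ i, fderiv ℝ (X i) y v • EuclideanSpace.single i (1 : ℝ) := by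
  rw [(hasFDerivAt_vecF hX).fderiv, _root_.sum_apply]
  rfl

theorem norm_vecF_le {A : ℝ} {y : E m} (hA : ∀ i, |X i y| ≤ A) : ‖vecF X y‖ ≤ m * A := by
  unfold vecF
  refine (norm_sum_le _ _).trans ?_
  calc ∑ i : Fin m, ‖X i y • (EuclideanSpace.single i (1 : ℝ) : E m)‖ ≤ ∑ _i : Fin m, A := by
        refine Finset.sum_le_sum fun i _ => ?_
        rw [norm_smul, PiLp.norm_single, norm_one, mul_one]
        exact hA i
    _ = m * A := by simp

theorem norm_fderiv_vecF_le {A : ℝ} {y : E m} (hX : ∀ i, DifferentiableAt ℝ (X i) y)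
    (hA : ∀ i, ‖fderiv ℝ (X i) y‖ ≤ A) : ‖fderiv ℝ (vecF X) y‖ ≤ m * A := by
  have hA0 : 0 ≤ (m : ℝ) * A := by
    rcases Nat.eq_zero_or_pos m with h | h
    · simp [h]
    · exact mul_nonneg (Nat.cast_nonneg _) ((norm_nonneg _).trans (hA ⟨0, h⟩))
  refine ContinuousLinearMap.opNorm_le_bound _ hA0 fun v => ?_
  rw [fderiv_vecF_apply hX]
  refine (norm_sum_le _ _).trans ?_
  calc ∑ i : Fin m, ‖fderiv ℝ (X i) y v • (EuclideanSpace.single i (1 : ℝ) : E m)‖
      ≤ ∑ _i : Fin m, A * ‖v‖ := by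
        refine Finset.sum_le_sum fun i _ => ?_
        rw [norm_smul, PiLp.norm_single, norm_one, mul_one]
        exact ((fderiv ℝ (X i) y).le_opNorm v).trans
          (mul_le_mul_of_nonneg_right (hA i) (norm_nonneg _))
    _ = m * A * ‖v‖ := by simp; ring

theorem vecF_eq_zero {y : E m} (h : ∀ i, X i y = 0) : vecF X y = 0 := by
  unfold vecF
  simp [h]

theorem tsupport_vecF_subset {K : Set (E m)} (hK : IsClosed K) (h : ∀ i, tsupport (X i) ⊆ K) :
    tsupport (vecF X) ⊆ K :=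
  closure_minimal (fun y hy => by
    by_contra hyK
    exact hy (vecF_eq_zero fun i => image_eq_zero_of_notMem_tsupport fun hh => hyK (h i hh))) hK

theorem trc_fderiv_vecF {y : E m} (hX : ∀ i, DifferentiableAt ℝ (X i) y) :
    trc (fderiv ℝ (vecF X) y) = ∑ i, pd i (X i) y := by
  rw [trc_eq_sum]
  refine Finset.sum_congr rfl fun i _ => ?_
  rw [fderiv_vecF_apply hX, sum_inner, Finset.sum_eq_single i]
  · rw [inner_smul_left]
    simp [pd]
  · intro j _ hj
    rw [inner_smul_left]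
    simp [EuclideanSpace.inner_single_left, hj]
  · intro h; exact absurd (Finset.mem_univ i) h

theorem tanF_vecF (u : E m → E n) (y : E m) :
    tanF u (vecF X) y = ∑ i, X i y • dcoord u y i := by
  unfold tanF vecF dcoord
  rw [map_sum]
  exact Finset.sum_congr rfl fun i _ => map_smul _ _ _

end VecF

/-! ### the lift -/

section Lift

variable {u : E m → E n}

theorem Shp_tanF (u : E m → E n) (Xc : E m → E m) (y : E m) (w : E (m + n)) :
    Shp u y w (tanF u Xc y) = fderiv ℝ (Ph u) y (Xc y) (Pv u y w) := by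
  unfold Shp tanF
  rw [ContinuousLinearMap.comp_apply, dFp_dF, ContinuousLinearMap.flip_apply]

theorem lift_eq (u : E m → E n) (Xc : E m → E m) (X : E (m + n)) :
    lift u Xc X = tanF u Xc (npr u X)
      - fderiv ℝ (Ph u) (npr u X) (Xc (npr u X)) (Pv u (npr u X) (zz u X)) := by
  unfold lift Jz
  rw [_root_.sub_apply, Shp_tanF]
  rfl

theorem lk_contDiff_tanF (hu : ContDiff ℝ 2 u) {Xc : E m → E m} (hX : ContDiff ℝ 1 Xc) :
    ContDiff ℝ 1 (tanF u Xc) := by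
  unfold tanF
  exact (contDiff_dF_Du (k := 1) (by exact_mod_cast hu)).clm_apply hX

theorem lk_contDiffOn_lift (hu : ContDiff ℝ 3 u) {Xc : E m → E m} (hX : ContDiff ℝ 1 Xc)
    {S : Set (E (m + n))} (h1 : ContDiffOn ℝ 1 (npr u) S) (h2 : ContDiffOn ℝ 1 (zz u) S) :
    ContDiffOn ℝ 1 (lift u Xc) S := by
  have e : lift u Xc = fun X => tanF u Xc (npr u X)
      - fderiv ℝ (Ph u) (npr u X) (Xc (npr u X)) (Pv u (npr u X) (zz u X)) :=
    funext (lift_eq u Xc)
  rw [e]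
  have hu2 : ContDiff ℝ 2 u := hu.of_le (by norm_num)
  have a1 : ContDiffOn ℝ 1 (fun X => tanF u Xc (npr u X)) S :=
    (lk_contDiff_tanF hu2 hX).comp_contDiffOn h1
  have a2 : ContDiffOn ℝ 1 (fun X => fderiv ℝ (Ph u) (npr u X) (Xc (npr u X))) S :=
    ((contDiff_fderiv_Ph hu).clm_apply hX).comp_contDiffOn h1
  have a3 : ContDiffOn ℝ 1 (fun X => Pv u (npr u X) (zz u X)) S :=
    ((contDiff_Pv_of (k := 1) (by exact_mod_cast hu2)).comp_contDiffOn h1).clm_apply h2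
  exact a1.sub (a2.clm_apply a3)

theorem lift_eq_zero (u : E m → E n) {Xc : E m → E m} {X : E (m + n)} (h : Xc (npr u X) = 0) :
    lift u Xc X = 0 := by
  unfold lift tanF
  rw [h, map_zero, map_zero]

end Lift

/-! ### the covariant derivative -/

section NabS

variable {u : E m → E n} {κ : ℝ}

theorem nabS_eq (hu : ContDiff ℝ 2 u) {Xc : E m → E m} {y : E m} (hX : DifferentiableAt ℝ Xc y) :
    nabS u Xc y = dF (fderiv ℝ u y) ∘L fderiv ℝ Xc y ∘L dFp (fderiv ℝ u y)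
      + Ph u y ∘L Wop u y (Xc y) ∘L dFp (fderiv ℝ u y) := by
  unfold nabS
  rw [(hasFDerivAt_tanF hu hX).fderiv, ContinuousLinearMap.add_comp, ContinuousLinearMap.comp_add,
    ContinuousLinearMap.comp_assoc, ← ContinuousLinearMap.comp_assoc (Ph u y), Ph_comp_dF]

theorem norm_Ph_Wop_dFp_le (hu : Geo κ u) (y v : E m) :
    ‖Ph u y ∘L Wop u y v ∘L dFp (fderiv ℝ u y)‖ ≤ 3 / 2 * κ * ‖v‖ := by
  have := norm_comp_le _ _ (norm_Ph_le u y)
    (norm_comp_le _ _ (hu.norm_Wop_le y v) (hu.norm_dFp_le y))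
  linarith

theorem norm_nabS_le (hu : Geo κ u) {Xc : E m → E m} {y : E m} (hX : DifferentiableAt ℝ Xc y) :
    ‖nabS u Xc y‖ ≤ 9 / 4 * ‖fderiv ℝ Xc y‖ + 3 / 2 * κ * ‖Xc y‖ := by
  rw [nabS_eq hu.c2 hX]
  refine (norm_add_le _ _).trans (add_le_add ?_ (norm_Ph_Wop_dFp_le hu y _))
  have := norm_comp_le _ _ (hu.norm_dF_le y)
    (norm_comp_le (fderiv ℝ Xc y) _ le_rfl (hu.norm_dFp_le y))
  linarith

variable (u) {P : E (m + n) →L[ℝ] E (m + n)} (X : E (m + n))

theorem Bop_comp_Ph : Bop u P X ∘L Ph u (npr u X) = Bop u P X := by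
  unfold Bop
  simp only [ContinuousLinearMap.comp_assoc, Ph_comp_Ph]

/-- `tr (B dF L dF⁺) = tr (G L g⁻¹)` -/
theorem trc_Bop_comp_chart (hP : IsProj m P) (L : E m →L[ℝ] E m) :
    trc (Bop u P X ∘L (dF (fderiv ℝ u (npr u X)) ∘L L ∘L dFp (fderiv ℝ u (npr u X))))
      = trc ((adj (gramB u P X) ∘L gramB u P X)
          ∘L (L ∘L (gmat (fderiv ℝ u (npr u X))).inverse)) := by
  rw [adjoint_gramB_comp u X hP]
  unfold dFp
  have e1 : Bop u P X ∘L (dF (fderiv ℝ u (npr u X)) ∘L L ∘L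
      ((gmat (fderiv ℝ u (npr u X))).inverse ∘L adj (dF (fderiv ℝ u (npr u X)))))
      = (Bop u P X ∘L dF (fderiv ℝ u (npr u X)) ∘L L ∘L (gmat (fderiv ℝ u (npr u X))).inverse)
        ∘L adj (dF (fderiv ℝ u (npr u X))) := by
    simp only [ContinuousLinearMap.comp_assoc]
  rw [e1, trc_comp_comm]
  simp only [ContinuousLinearMap.comp_assoc]

theorem inner_gram_single (hP : IsProj m P) (i j : Fin m) :
    inner ℝ ((adj (gramB u P X) ∘L gramB u P X) (EuclideanSpace.single i 1))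
      (EuclideanSpace.single j 1)
      = inner ℝ (Bop u P X (dcoord u (npr u X) i)) (dcoord u (npr u X) j) := by
  rw [adjoint_gramB_comp u X hP, ContinuousLinearMap.comp_apply,
    ContinuousLinearMap.adjoint_inner_left]
  rfl

theorem trc_gram_le (hP : IsProj m P) (hs : ‖fderiv ℝ u (npr u X)‖ ≤ 1 / 2) :
    trc (adj (gramB u P X) ∘L gramB u P X) ≤ 9 / 4 * m * tilt u P X := by
  rw [trc_gramB u X hP]
  have h0 := ck_tilt_nonneg u X hP
  calc ∑ i, inner ℝ (Bop u P X (dcoord u (npr u X) i)) (dcoord u (npr u X) i)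
      ≤ ∑ _i : Fin m, 9 / 4 * tilt u P X := by
        refine Finset.sum_le_sum fun i _ => ?_
        refine (le_abs_self _).trans ((abs_inner_Bop_le u X hP _ _).trans ?_)
        have : ‖dcoord u (npr u X) i‖ ≤ 3 / 2 := (norm_dcoord_le u _ i).trans (by linarith)
        calc tilt u P X * (‖dcoord u (npr u X) i‖ * ‖dcoord u (npr u X) i‖)
            ≤ tilt u P X * (3 / 2 * (3 / 2)) := by gcongr
          _ = _ := by ring
    _ = _ := by simp; ring

end NabS

section NabS2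

variable {u : E m → E n} {κ : ℝ} {P : E (m + n) →L[ℝ] E (m + n)} (X : E (m + n))

theorem trc_gram_comp_fderiv_vecF (hP : IsProj m P) {Xf : Fin m → E m → ℝ}
    (hX : ∀ i, DifferentiableAt ℝ (Xf i) (npr u X)) :
    trc ((adj (gramB u P X) ∘L gramB u P X) ∘L fderiv ℝ (vecF Xf) (npr u X))
      = ∑ i, ∑ j, pd j (Xf i) (npr u X)
          * inner ℝ (Bop u P X (dcoord u (npr u X) i)) (dcoord u (npr u X) j) := by
  rw [trc_eq_sum, Finset.sum_comm]
  refine Finset.sum_congr rfl fun j _ => ?_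
  rw [ContinuousLinearMap.comp_apply, fderiv_vecF_apply hX, map_sum, sum_inner]
  refine Finset.sum_congr rfl fun i _ => ?_
  rw [map_smul, inner_smul_left, inner_gram_single u X hP]
  rfl

/-- `B : ∇^S X = ∑ ∂_j X^i B[∂_i, ∂_j] + O((|Du|² |DX| + κ |X|) e)` -/
theorem abs_trc_Bop_nabS_sub_le (hu : Geo κ u) (hP : IsProj m P) {Xf : Fin m → E m → ℝ}
    (hX : ∀ i, DifferentiableAt ℝ (Xf i) (npr u X)) :
    |trc (Bop u P X ∘L nabS u (vecF Xf) (npr u X))
        - ∑ i, ∑ j, pd j (Xf i) (npr u X)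
          * inner ℝ (Bop u P X (dcoord u (npr u X) i)) (dcoord u (npr u X) j)|
      ≤ 9 / 4 * m * tilt u P X
          * (‖fderiv ℝ (vecF Xf) (npr u X)‖ * ‖fderiv ℝ u (npr u X)‖ ^ 2)
        + tilt u P X * (3 / 2 * κ * ‖vecF Xf (npr u X)‖) := by
  set y := npr u X with hy
  set G := adj (gramB u P X) ∘L gramB u P X with hG
  set L := fderiv ℝ (vecF Xf) y with hL
  have hd : DifferentiableAt ℝ (vecF Xf) y := (hasFDerivAt_vecF hX).differentiableAt
  have e1 : trc (Bop u P X ∘L nabS u (vecF Xf) y)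
      = trc (G ∘L L) + trc (G ∘L (L ∘L ((gmat (fderiv ℝ u y)).inverse
          - ContinuousLinearMap.id ℝ (E m))))
        + trc (Bop u P X ∘L (Ph u y ∘L Wop u y (vecF Xf y) ∘L dFp (fderiv ℝ u y))) := by
    rw [nabS_eq hu.c2 hd, ContinuousLinearMap.comp_add, trc_add, trc_Bop_comp_chart u X hP,
      ← trc_add, ← ContinuousLinearMap.comp_add, ContinuousLinearMap.comp_sub,
      ContinuousLinearMap.comp_id]
    congr 3
    abel
  rw [e1, ← trc_gram_comp_fderiv_vecF X hP hX]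
  have e2 : ∀ a b c : ℝ, a + b + c - a = b + c := fun a b c => by ring
  rw [e2]
  refine (abs_add_le _ _).trans (add_le_add ?_ ?_)
  · refine (abs_trc_gram_comp_le _ _).trans ?_
    have h0 := ck_tilt_nonneg u X hP
    refine mul_le_mul (trc_gram_le u X hP (hu.slope _)) ?_ (norm_nonneg _) (by positivity)
    exact norm_comp_le _ _ le_rfl (norm_gmat_inverse_sub_le _)
  · refine (abs_trc_Bop_comp_le u hP X _).trans
      (mul_le_mul_of_nonneg_left (norm_Ph_Wop_dFp_le hu y _) (ck_tilt_nonneg u X hP))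

end NabS2

theorem stress_arith {mm e s ζ q D ε a c Cg L x nb M : ℝ} (hm : 0 ≤ mm) (he : 0 ≤ e) (hs : 0 ≤ s)
    (hζ0 : 0 ≤ ζ) (hζ : ζ ≤ c * a) (hq : q ≤ ε * a) (hD0 : 0 ≤ D) (hD : D ≤ ε)
    (hε0 : 0 ≤ ε) (hε : ε ≤ 1 / 2) (ha0 : 0 < a) (ha : a ≤ 1) (hc : 0 ≤ c) (hCg : 0 ≤ Cg)
    (hL0 : 0 ≤ L) (hL : L ≤ M) (hx0 : 0 ≤ x) (hx : x ≤ M) (hnb0 : 0 ≤ nb) (hnb : nb ≤ 4 * M) :
    (9 / 4 * mm * e * (L * D ^ 2) + e * (3 / 2 * ε * x))
      + Cg * (ε * ζ * e * nb + (q * ζ + ε ^ 2 * ζ ^ 2 + ε * e * ζ + ε ^ 2 * s * ζ) * x)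
      ≤ (ε * M * (9 / 4 * mm + 3 / 2 + 7 * Cg * c + Cg * c ^ 2)) * (e + a * s + a ^ 2) := by
  have hM : 0 ≤ M := hL0.trans hL
  have hca : 0 ≤ c * a := by positivity
  have hζc : ζ ≤ c := hζ.trans (mul_le_of_le_one_right hc ha)
  have hε2 : ε ^ 2 ≤ ε := by nlinarith
  have hD2 : D ^ 2 ≤ ε := (pow_le_pow_left₀ hD0 hD 2).trans hε2
  have hζ2 : ζ ^ 2 ≤ (c * a) ^ 2 := pow_le_pow_left₀ hζ0 hζ 2
  have t1 : 9 / 4 * mm * e * (L * D ^ 2) ≤ 9 / 4 * mm * e * (M * ε) := by gcongr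
  have t2 : e * (3 / 2 * ε * x) ≤ e * (3 / 2 * ε * M) := by gcongr
  have t3 : ε * ζ * e * nb ≤ ε * c * e * (4 * M) := by gcongr
  have t4 : q * ζ ≤ (ε * a) * (c * a) := by gcongr
  have t5 : ε ^ 2 * ζ ^ 2 ≤ ε * (c * a) ^ 2 := by gcongr
  have t6 : ε * e * ζ ≤ ε * e * c := by gcongr
  have t7 : ε ^ 2 * s * ζ ≤ ε * s * (c * a) := by gcongr
  have t8 : (q * ζ + ε ^ 2 * ζ ^ 2 + ε * e * ζ + ε ^ 2 * s * ζ) * x
      ≤ ((ε * a) * (c * a) + ε * (c * a) ^ 2 + ε * e * c + ε * s * (c * a)) * M := by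
    gcongr
  have has : 0 ≤ a * s := by positivity
  have ha2 : 0 ≤ a ^ 2 := by positivity
  have u1 : (9 / 4 * mm + 3 / 2 + 5 * Cg * c) * e
      ≤ (9 / 4 * mm + 3 / 2 + 5 * Cg * c) * (e + a * s + a ^ 2) :=
    mul_le_mul_of_nonneg_left (by linarith) (by positivity)
  have u2 : Cg * c * (a * s) ≤ Cg * c * (e + a * s + a ^ 2) :=
    mul_le_mul_of_nonneg_left (by linarith) (by positivity)
  have u3 : (Cg * c + Cg * c ^ 2) * a ^ 2 ≤ (Cg * c + Cg * c ^ 2) * (e + a * s + a ^ 2) :=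
    mul_le_mul_of_nonneg_left (by linarith) (by positivity)
  calc (9 / 4 * mm * e * (L * D ^ 2) + e * (3 / 2 * ε * x))
      + Cg * (ε * ζ * e * nb + (q * ζ + ε ^ 2 * ζ ^ 2 + ε * e * ζ + ε ^ 2 * s * ζ) * x)
      ≤ (9 / 4 * mm * e * (M * ε) + e * (3 / 2 * ε * M))
        + Cg * (ε * c * e * (4 * M)
          + ((ε * a) * (c * a) + ε * (c * a) ^ 2 + ε * e * c + ε * s * (c * a)) * M) := by
        gcongr
    _ = ε * M * ((9 / 4 * mm + 3 / 2 + 5 * Cg * c) * e + Cg * c * (a * s)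
          + (Cg * c + Cg * c ^ 2) * a ^ 2) := by ring
    _ ≤ ε * M * ((9 / 4 * mm + 3 / 2 + 5 * Cg * c) * (e + a * s + a ^ 2)
          + Cg * c * (e + a * s + a ^ 2) + (Cg * c + Cg * c ^ 2) * (e + a * s + a ^ 2)) :=
        mul_le_mul_of_nonneg_left (by linarith) (by positivity)
    _ = _ := by ring

end Claimed.Agent.R322.Lin
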