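import Claimed.Agent.R322.Lin.QStress

/-!
# CO Proposition 6.1, [Q2]: the horizontal first variation with the multiplier `|z|²` (helper253)
-/

set_option autoImplicit false

open scoped ENNReal ContDiff Topology
open MeasureTheory

namespace Claimed.Agent.R322.Lin

open Claimed.Agent.R322.Tube Claimed.Agent.R322.Fn

local notation "adj" => ContinuousLinearMap.adjoint
local notation "𝟙" => ContinuousLinearMap.id ℝ _

variable {m n : ℕ}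

namespace VK

variable {N : NCyl m n} {κ Cg : ℝ}

theorem norm_Shp_half (v : VK N κ Cg) {X : E (m + n)} (hX : X ∈ Cyl N.u N.Ω N.h) :
    ‖Shp N.u (npr N.u X) (zz N.u X)‖ ≤ 1 / 2 := v.geo.norm_Shp_le_half _ (v.norm_zz_le hX)

/-- `∇ |z|² = 2 z` -/
theorem fderiv_norm_sq_zz (v : VK N κ Cg) {X : E (m + n)} (hX : X ∈ Cyl N.u N.Ω N.h)
    (hz : Ph N.u (npr N.u X) (zz N.u X) = 0) (w : E (m + n)) :
    fderiv ℝ (fun X => ‖zz N.u X‖ ^ 2) X w = 2 * inner ℝ (zz N.u X) w := by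
  have h1 := (v.diffAt_zz hX).hasFDerivAt.norm_sq
  rw [h1.fderiv, v.d_zz X hX]
  simp only [_root_.smul_apply, ContinuousLinearMap.comp_apply, innerSL_apply_apply,
    _root_.sub_apply, ContinuousLinearMap.id_apply, inner_sub_right]
  have h2 : Kz N.u X (Ph N.u (npr N.u X) w) = Ph N.u (npr N.u X) (Kz N.u X w) :=
    (congrArg (fun T : E (m + n) →L[ℝ] E (m + n) => T w)
      (Ph_comp_Kw v.geo.c2 (v.norm_Shp_half hX))).symm
  rw [h2, ← (isProj_Ph N.u (npr N.u X)).symm, hz, inner_zero_left, sub_zero, two_smul, two_mul]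

theorem diffAt_norm_sq_zz (v : VK N κ Cg) {X : E (m + n)} (hX : X ∈ Cyl N.u N.Ω N.h) :
    DifferentiableAt ℝ (fun X => ‖zz N.u X‖ ^ 2) X :=
  (v.diffAt_zz hX).hasFDerivAt.norm_sq.differentiableAt

/-- the divergence of `|z|² J_z Y` -/
theorem tdiv_sq_lift (v : VK N κ Cg) {Xc : E m → E m} (hXc : ContDiff ℝ 1 Xc) {X : E (m + n)}
    (hX : X ∈ Cyl N.u N.Ω N.h) (hz : Ph N.u (npr N.u X) (zz N.u X) = 0)
    (P : E (m + n) →L[ℝ] E (m + n)) :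
    tdiv P (fderiv ℝ (fun X => ‖zz N.u X‖ ^ 2 • lift N.u Xc X) X)
      = ‖zz N.u X‖ ^ 2 * tdiv P (fderiv ℝ (lift N.u Xc) X)
        + 2 * inner ℝ (zz N.u X) (P (lift N.u Xc X)) := by
  have hL : DifferentiableAt ℝ (lift N.u Xc) X :=
    ((lk_contDiffOn_lift v.geo.c3 hXc (v.c3_npr.of_le (by norm_num))
      (v.c3_zz.of_le (by norm_num))).contDiffAt (v.isOpen.mem_nhds hX)).differentiableAt
      (by norm_num)
  rw [tdiv_fderiv_smul P (v.diffAt_norm_sq_zz hX) hL, v.fderiv_norm_sq_zz hX hz]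

/-- `z · P_T (J_z - 1) Y` is small -/
theorem abs_inner_zz_P_Shp_le (v : VK N κ Cg) {X : E (m + n)}
    (hz : Ph N.u (npr N.u X) (zz N.u X) = 0) {P : E (m + n) →L[ℝ] E (m + n)} (hP : IsProj m P)
    (w : E (m + n)) :
    |inner ℝ (zz N.u X) (P (Shp N.u (npr N.u X) (zz N.u X) w))|
      ≤ ‖zz N.u X‖ * (Real.sqrt (tilt N.u P X) * (9 / 4 * κ * ‖zz N.u X‖ * ‖w‖)) := by
  have h1 : Ph N.u (npr N.u X) (Shp N.u (npr N.u X) (zz N.u X) w)
      = Shp N.u (npr N.u X) (zz N.u X) w :=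
    congrArg (fun T : E (m + n) →L[ℝ] E (m + n) => T w) (Ph_comp_Shp v.geo.c2 _ _)
  refine (abs_inner_zz_P_le N.u X hP hz _ h1).trans ?_
  have h2 : ‖Shp N.u (npr N.u X) (zz N.u X) w‖ ≤ 9 / 4 * κ * ‖zz N.u X‖ * ‖w‖ :=
    (ContinuousLinearMap.le_opNorm _ _).trans
      (mul_le_mul_of_nonneg_right (v.geo.norm_Shp_le _ _) (norm_nonneg _))
  gcongr

end VK

theorem grad_arith_T {p r M k t E : ℝ} (hp : 0 ≤ p) (hr : 0 ≤ r) (hM : 0 ≤ M) (hk : 0 ≤ k)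
    (ht : 0 ≤ t) (htE : t ≤ E) : p * M * k * t ≤ (p + r) * M * k * E := by
  have h1 : p * M * k * t ≤ (p + r) * M * k * t := by
    have : p ≤ p + r := by linarith
    gcongr
  exact h1.trans (mul_le_mul_of_nonneg_left htE (by positivity))

theorem grad_arith_Br {e s ζ q ε a Cg CL ρ x nb M : ℝ} (he : 0 ≤ e) (hs : 0 ≤ s)
    (hζ0 : 0 ≤ ζ) (hζ1 : ζ ≤ 1) (hq : q ≤ ε * a)
    (hε0 : 0 ≤ ε) (hε : ε ≤ 1 / 2) (ha : a ≤ 1) (hCg : 0 ≤ Cg)
    (hρ : ρ ≤ CL * ε * M) (hx0 : 0 ≤ x) (hx : x ≤ M)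
    (hnb : nb ≤ 4 * M) :
    ρ + e * nb
        + Cg * (ε * ζ * e * nb + (q * ζ + ε ^ 2 * ζ ^ 2 + ε * e * ζ + ε ^ 2 * s * ζ) * x)
      ≤ M * (CL * ε + 4 * e + Cg * ε * (5 * e + 2 + s)) := by
  have hM : 0 ≤ M := hx0.trans hx
  have hε2 : ε ^ 2 ≤ ε := by nlinarith
  have hζ2' : ζ ^ 2 ≤ 1 := pow_le_one₀ hζ0 hζ1
  have hqε : q ≤ ε := hq.trans (mul_le_of_le_one_right hε0 ha)
  have b1 : ε * ζ * e * nb ≤ ε * 1 * e * (4 * M) := by
    calc ε * ζ * e * nb ≤ ε * ζ * e * (4 * M) := mul_le_mul_of_nonneg_left hnb (by positivity)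
      _ ≤ _ := by gcongr
  have b2 : q * ζ ≤ ε * 1 := by
    calc q * ζ ≤ ε * ζ := mul_le_mul_of_nonneg_right hqε hζ0
      _ ≤ ε * 1 := by gcongr
  have b3 : ε ^ 2 * ζ ^ 2 ≤ ε * 1 := by gcongr
  have b4 : ε * e * ζ ≤ ε * e * 1 := by gcongr
  have b5 : ε ^ 2 * s * ζ ≤ ε * s * 1 := by gcongr
  have b6 : (q * ζ + ε ^ 2 * ζ ^ 2 + ε * e * ζ + ε ^ 2 * s * ζ) * x
      ≤ (ε * 1 + ε * 1 + ε * e * 1 + ε * s * 1) * M := by
    have : q * ζ + ε ^ 2 * ζ ^ 2 + ε * e * ζ + ε ^ 2 * s * ζ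
        ≤ ε * 1 + ε * 1 + ε * e * 1 + ε * s * 1 := by linarith
    calc _ ≤ (ε * 1 + ε * 1 + ε * e * 1 + ε * s * 1) * x := mul_le_mul_of_nonneg_right this hx0
      _ ≤ _ := mul_le_mul_of_nonneg_left hx (by positivity)
  have b7 : e * nb ≤ e * (4 * M) := mul_le_mul_of_nonneg_left hnb he
  have b8 : Cg * (ε * ζ * e * nb + (q * ζ + ε ^ 2 * ζ ^ 2 + ε * e * ζ + ε ^ 2 * s * ζ) * x)
      ≤ Cg * (ε * 1 * e * (4 * M) + (ε * 1 + ε * 1 + ε * e * 1 + ε * s * 1) * M) :=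
    mul_le_mul_of_nonneg_left (by linarith) hCg
  calc _ ≤ CL * ε * M + e * (4 * M)
        + Cg * (ε * 1 * e * (4 * M) + (ε * 1 + ε * 1 + ε * e * 1 + ε * s * 1) * M) := by linarith
    _ = _ := by ring

theorem grad_arith_key {e s ε a c Cg CL M : ℝ} (he : 0 ≤ e) (hs : 0 ≤ s)
    (hε0 : 0 ≤ ε) (ha0 : 0 < a) (ha : a ≤ 1) (hCg : 0 ≤ Cg) (hM : 0 ≤ M) :
    (c * a) ^ 2 * (M * (CL * ε + 4 * e + Cg * ε * (5 * e + 2 + s)))
      ≤ M * c ^ 2 * (ε * CL * a ^ 2 + 4 * (a * e) + Cg * ε * (5 * e + 2 * a ^ 2 + a * s)) := by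
  have ha2 : a ^ 2 ≤ a := by nlinarith
  have d1 : a ^ 2 * e ≤ a * e := mul_le_mul_of_nonneg_right ha2 he
  have d2 : a ^ 2 * e ≤ e := (mul_le_mul_of_nonneg_right (ha2.trans ha) he).trans (by linarith)
  have d3 : a ^ 2 * s ≤ a * s := mul_le_mul_of_nonneg_right ha2 hs
  have : (c * a) ^ 2 * (M * (CL * ε + 4 * e + Cg * ε * (5 * e + 2 + s)))
      = M * c ^ 2 * (ε * CL * a ^ 2 + 4 * (a ^ 2 * e)
        + Cg * ε * (5 * (a ^ 2 * e) + 2 * a ^ 2 + a ^ 2 * s)) := by ring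
  rw [this]
  refine mul_le_mul_of_nonneg_left ?_ (by positivity)
  have : Cg * ε * (5 * (a ^ 2 * e) + 2 * a ^ 2 + a ^ 2 * s)
      ≤ Cg * ε * (5 * e + 2 * a ^ 2 + a * s) :=
    mul_le_mul_of_nonneg_left (by linarith) (by positivity)
  linarith

theorem grad_arith_sum {e s ε a c Cg CL M : ℝ} (he : 0 ≤ e) (hs : 0 ≤ s)
    (hε0 : 0 ≤ ε) (ha0 : 0 < a) (hc : 0 ≤ c) (hCg : 0 ≤ Cg) (hCL : 0 ≤ CL) (hM : 0 ≤ M) :
    M * c ^ 2 * (ε * CL * a ^ 2 + 4 * (a * e) + Cg * ε * (5 * e + 2 * a ^ 2 + a * s))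
        + 27 / 4 * ε * M * (c * (a * s))
      ≤ ((ε + a) * M * (c ^ 2 * CL + 8 * Cg * c ^ 2 + 4 * c ^ 2 + 27 / 4 * c))
        * (e + a * s + a ^ 2) := by
  have has : 0 ≤ a * s := by positivity
  have ha2' : 0 ≤ a ^ 2 := by positivity
  have m1 := grad_arith_T (E := e + a * s + a ^ 2) hε0 ha0.le hM
    (show 0 ≤ c ^ 2 * CL by positivity) ha2' (by linarith)
  have m2 := grad_arith_T (E := e + a * s + a ^ 2) ha0.le hε0 hM
    (show 0 ≤ 4 * c ^ 2 by positivity) he (by linarith)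
  have m3 := grad_arith_T (E := e + a * s + a ^ 2) hε0 ha0.le hM
    (show 0 ≤ 5 * Cg * c ^ 2 by positivity) he (by linarith)
  have m4 := grad_arith_T (E := e + a * s + a ^ 2) hε0 ha0.le hM
    (show 0 ≤ 2 * Cg * c ^ 2 by positivity) ha2' (by linarith)
  have m5 := grad_arith_T (E := e + a * s + a ^ 2) hε0 ha0.le hM
    (show 0 ≤ Cg * c ^ 2 by positivity) has (by linarith)
  have m6 := grad_arith_T (E := e + a * s + a ^ 2) hε0 ha0.le hM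
    (show 0 ≤ 27 / 4 * c by positivity) has (by linarith)
  calc _ = ε * M * (c ^ 2 * CL) * a ^ 2 + a * M * (4 * c ^ 2) * e + ε * M * (5 * Cg * c ^ 2) * e
        + ε * M * (2 * Cg * c ^ 2) * a ^ 2 + ε * M * (Cg * c ^ 2) * (a * s)
        + ε * M * (27 / 4 * c) * (a * s) := by ring
    _ ≤ (ε + a) * M * (c ^ 2 * CL) * (e + a * s + a ^ 2)
        + (a + ε) * M * (4 * c ^ 2) * (e + a * s + a ^ 2)
        + (ε + a) * M * (5 * Cg * c ^ 2) * (e + a * s + a ^ 2)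
        + (ε + a) * M * (2 * Cg * c ^ 2) * (e + a * s + a ^ 2)
        + (ε + a) * M * (Cg * c ^ 2) * (e + a * s + a ^ 2)
        + (ε + a) * M * (27 / 4 * c) * (e + a * s + a ^ 2) := by linarith
    _ = _ := by ring

theorem grad_arith {e s ζ q ε a c Cg CL ρ x nb tn M : ℝ} (he : 0 ≤ e) (hs : 0 ≤ s)
    (hζ0 : 0 ≤ ζ) (hζ : ζ ≤ c * a) (hζ1 : ζ ≤ 2 / 9) (hq : q ≤ ε * a)
    (hε0 : 0 ≤ ε) (hε : ε ≤ 1 / 2) (ha0 : 0 < a) (ha : a ≤ 1) (hc : 0 ≤ c) (hCg : 0 ≤ Cg)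
    (hCL : 0 ≤ CL) (hρ : ρ ≤ CL * ε * M) (hx0 : 0 ≤ x) (hx : x ≤ M)
    (hnb : nb ≤ 4 * M) (htn : tn ≤ 3 / 2 * M) :
    ζ ^ 2 * (ρ + e * nb
        + Cg * (ε * ζ * e * nb + (q * ζ + ε ^ 2 * ζ ^ 2 + ε * e * ζ + ε ^ 2 * s * ζ) * x))
      + 2 * (ζ * (s * (9 / 4 * ε * ζ * tn)))
      ≤ ((ε + a) * M * (c ^ 2 * CL + 8 * Cg * c ^ 2 + 4 * c ^ 2 + 27 / 4 * c))
        * (e + a * s + a ^ 2) := by
  have hM : 0 ≤ M := hx0.trans hx
  have hca : 0 ≤ c * a := by positivity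
  have hζ1' : ζ ≤ 1 := hζ1.trans (by norm_num)
  have hζ2 : ζ ^ 2 ≤ (c * a) ^ 2 := pow_le_pow_left₀ hζ0 hζ 2
  have hζ2'' : ζ ^ 2 ≤ c * a := by nlinarith
  have Br := grad_arith_Br he hs hζ0 hζ1' hq hε0 hε ha hCg hρ hx0 hx hnb
  have Br0 : 0 ≤ M * (CL * ε + 4 * e + Cg * ε * (5 * e + 2 + s)) := by positivity
  have c1 : ζ ^ 2 * (ρ + e * nb
        + Cg * (ε * ζ * e * nb + (q * ζ + ε ^ 2 * ζ ^ 2 + ε * e * ζ + ε ^ 2 * s * ζ) * x))
      ≤ (c * a) ^ 2 * (M * (CL * ε + 4 * e + Cg * ε * (5 * e + 2 + s))) :=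
    (mul_le_mul_of_nonneg_left Br (by positivity)).trans (mul_le_mul_of_nonneg_right hζ2 Br0)
  have c2 : 2 * (ζ * (s * (9 / 4 * ε * ζ * tn))) ≤ 27 / 4 * ε * M * (c * (a * s)) := by
    have e1 : 2 * (ζ * (s * (9 / 4 * ε * ζ * tn))) = (9 / 2 * ε * s * ζ ^ 2) * tn := by ring
    have e2 : 27 / 4 * ε * M * (c * (a * s)) = (9 / 2 * ε * s * (c * a)) * (3 / 2 * M) := by ring
    rw [e1, e2]
    exact (mul_le_mul_of_nonneg_left htn (by positivity)).trans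
      (mul_le_mul_of_nonneg_right (by gcongr) (by positivity))
  exact (add_le_add (c1.trans (grad_arith_key he hs hε0 ha0 ha hCg hM)) c2).trans
    (grad_arith_sum he hs hε0 ha0 hc hCg hCL hM)

namespace VK

variable {N : NCyl m n} {κ Cg : ℝ}

/-- pointwise error of [Q2] -/
theorem grad_err (v : VK N κ Cg) {Xf : Fin m → E m → ℝ} (hXf : ∀ i, ContDiff ℝ 1 (Xf i))
    {X : E (m + n)} (hX : X ∈ Cyl N.u N.Ω N.h) (hz : Ph N.u (npr N.u X) (zz N.u X) = 0)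
    {P : E (m + n) →L[ℝ] E (m + n)} (hP : IsProj m P) :
    |((∑ i, pd i (Xf i) (npr N.u X)) * ‖zz N.u X‖ ^ 2
        + 2 * ∑ i, Xf i (npr N.u X) * inner ℝ (zz N.u X) (P (dcoord N.u (npr N.u X) i)))
        - tdiv P (fderiv ℝ (fun X => ‖zz N.u X‖ ^ 2 • lift N.u (vecF Xf) X) X)|
      ≤ ‖zz N.u X‖ ^ 2 * (|fderiv ℝ (fun y' => Real.log (vdens (fderiv ℝ N.u y'))) (npr N.u X)
            (vecF Xf (npr N.u X))|
          + tilt N.u P X * ‖nabS N.u (vecF Xf) (npr N.u X)‖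
          + Cg * (κ * ‖zz N.u X‖ * tilt N.u P X * ‖nabS N.u (vecF Xf) (npr N.u X)‖
            + (Real.sqrt (DHSsq N.u (npr N.u X)) * ‖zz N.u X‖ + κ ^ 2 * ‖zz N.u X‖ ^ 2
                + κ * tilt N.u P X * ‖zz N.u X‖
                + κ ^ 2 * Real.sqrt (tilt N.u P X) * ‖zz N.u X‖) * ‖vecF Xf (npr N.u X)‖))
        + 2 * (‖zz N.u X‖ * (Real.sqrt (tilt N.u P X)
            * (9 / 4 * κ * ‖zz N.u X‖ * ‖tanF N.u (vecF Xf) (npr N.u X)‖))) := by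
  set y := npr N.u X with hy
  set z := zz N.u X with hzz
  have hd : ∀ i, DifferentiableAt ℝ (Xf i) y := fun i => (hXf i).differentiable (by simp) y
  have h2 := v.ltrace (vecF Xf) (contDiff_vecF hXf) X hX P hP
  have h3 := abs_trc_Bop_comp_le N.u hP X (nabS N.u (vecF Xf) y)
  have h4 := v.abs_inner_zz_P_Shp_le hz hP (tanF N.u (vecF Xf) y)
  have e1 : ∑ i, Xf i y * inner ℝ z (P (dcoord N.u y i)) = inner ℝ z (P (tanF N.u (vecF Xf) y)) := by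
    rw [tanF_vecF, map_sum, inner_sum]
    exact Finset.sum_congr rfl fun i _ => by rw [map_smul, inner_smul_right]
  have e2 : lift N.u (vecF Xf) X = tanF N.u (vecF Xf) y - Shp N.u y z (tanF N.u (vecF Xf) y) := by
    unfold lift Jz
    rw [_root_.sub_apply]
    rfl
  have e3 : divS N.u (vecF Xf) y = ∑ i, pd i (Xf i) y
      + fderiv ℝ (fun y' => Real.log (vdens (fderiv ℝ N.u y'))) y (vecF Xf y) := by
    unfold divS
    rw [trc_fderiv_vecF hd]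
  rw [v.tdiv_sq_lift (contDiff_vecF hXf) hX hz P, e1, e2, map_sub, inner_sub_right]
  have e4 : ((∑ i, pd i (Xf i) y) * ‖z‖ ^ 2 + 2 * inner ℝ z (P (tanF N.u (vecF Xf) y)))
      - (‖z‖ ^ 2 * tdiv P (fderiv ℝ (lift N.u (vecF Xf)) X)
        + 2 * (inner ℝ z (P (tanF N.u (vecF Xf) y))
          - inner ℝ z (P (Shp N.u y z (tanF N.u (vecF Xf) y)))))
      = ‖z‖ ^ 2 * (-(fderiv ℝ (fun y' => Real.log (vdens (fderiv ℝ N.u y'))) y (vecF Xf y))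
          + trc (Bop N.u P X ∘L nabS N.u (vecF Xf) y)
          - (tdiv P (fderiv ℝ (lift N.u (vecF Xf)) X)
            - (divS N.u (vecF Xf) y - trc (Bop N.u P X ∘L nabS N.u (vecF Xf) y))))
        + 2 * inner ℝ z (P (Shp N.u y z (tanF N.u (vecF Xf) y))) := by
    rw [e3]
    ring
  rw [e4]
  refine (abs_add_le _ _).trans (add_le_add ?_ ?_)
  · rw [abs_mul, abs_of_nonneg (sq_nonneg ‖z‖)]
    refine mul_le_mul_of_nonneg_left ?_ (sq_nonneg _)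
    refine (abs_sub _ _).trans (add_le_add ?_ h2)
    refine (abs_add_le _ _).trans (add_le_add ?_ h3)
    rw [abs_neg]
  · rw [abs_mul, abs_of_nonneg (by norm_num : (0 : ℝ) ≤ 2)]
    exact mul_le_mul_of_nonneg_left h4 (by norm_num)

end VK

theorem q_grad_core {N : NCyl m n} {R R₁ a C ε Cm Cg CL A : ℝ} (K : SK N R a C ε Cm)
    (v : VK N ε Cg) (hCg : 0 < Cg) (hCL0 : 0 ≤ CL)
    (hCL : ∀ T : E m →L[ℝ] E n, ‖T‖ ≤ 1 →
      ‖fderiv ℝ (fun T : E m →L[ℝ] E n => Real.log (vdens T)) T‖ ≤ CL)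
    (hR : R₁ < R) {Xf : Fin m → E m → ℝ} (F : FieldData R₁ A Xf) :
    |hsq N (fun y => ∑ i, pd i (Xf i) y) + 2 * ∑ i, flux N i (Xf i)|
      ≤ 3 * ((ε + a) * (m * A) * (|C| ^ 2 * CL + 8 * Cg * |C| ^ 2 + 4 * |C| ^ 2 + 27 / 4 * |C|))
        * Cm * a ^ 2 := by
  have hu2 : ContDiff ℝ 2 N.u := v.geo.c2
  obtain ⟨hL, -, -⟩ := stat_lift K v hR F
  have hY : ContDiffOn ℝ 1 (fun X => ‖zz N.u X‖ ^ 2 • lift N.u (vecF Xf) X)
      (Cyl N.u N.Ω N.h) :=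
    ((v.c3_zz.of_le (by norm_num)).norm_sq ℝ).smul hL
  obtain ⟨hDi, hD0⟩ := v.stat _ (Metric.closedBall 0 R₁) hY (isCompact_closedBall _ _)
    (K.small.Ω_eq ▸ Metric.closedBall_subset_ball hR)
    (fun X _ hXK => by rw [lift_eq_zero N.u (F.vec_zero hXK), smul_zero])
  have hg := F.isTest_div hR
  have hM := F.mA_nonneg
  have hI0 := K.integrable_test K.hsqw.1 hg
  have hI1 := fun i => K.ok.integrable_weight (K.fluxw i).1 (F.c1 i).continuous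
    fun y => (F.bound i y).1
  have hS1 := integrable_finsetSum Finset.univ fun i _ => hI1 i
  have hT : Integrable (fun X => (∑ i, pd i (Xf i) (npr N.u X)) * ‖zz N.u X‖ ^ 2
        + 2 * ∑ i, Xf i (npr N.u X) * inner ℝ (zz N.u X) (N.W.P X (dcoord N.u (npr N.u X) i)))
      N.μ := hI0.add (hS1.const_mul 2)
  have e : hsq N (fun y => ∑ i, pd i (Xf i) y) + 2 * ∑ i, flux N i (Xf i)
      = ∫ X, (((∑ i, pd i (Xf i) (npr N.u X)) * ‖zz N.u X‖ ^ 2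
        + 2 * ∑ i, Xf i (npr N.u X) * inner ℝ (zz N.u X) (N.W.P X (dcoord N.u (npr N.u X) i)))
        - tdiv (N.W.P X) (fderiv ℝ (fun X => ‖zz N.u X‖ ^ 2 • lift N.u (vecF Xf) X) X))
        ∂N.μ := by
    rw [integral_sub hT hDi, hD0, sub_zero, integral_add hI0 (hS1.const_mul 2),
      integral_const_mul, integral_finsetSum _ fun i _ => hI1 i]
    rfl
  rw [e]
  refine K.abs_integral_le_err (K.ae.mono fun X hX => ?_) (by
    have := K.ε_nonneg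
    have := K.a_pos
    positivity)
  refine (v.grad_err F.c1 hX.1 (K.ok.normal X hX.1) (N.W.P_proj X)).trans ?_
  have h1 := K.small.curv _ hX.2.1
  have hn := norm_nonneg (HS N.u (npr N.u X))
  have hnb : ‖nabS N.u (vecF Xf) (npr N.u X)‖ ≤ 4 * (m * A) := by
    refine (norm_nabS_le v.geo (F.vec_c1.differentiable (by simp) _)).trans ?_
    have a1 := F.norm_vec (npr N.u X)
    have a2 := F.norm_dvec (npr N.u X)
    have a3 : 3 / 2 * ε * ‖vecF Xf (npr N.u X)‖ ≤ 3 / 2 * (1 / 2) * (m * A) := by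
      have := K.ε_le
      have := K.ε_nonneg
      gcongr
    linarith
  have hρ : |fderiv ℝ (fun y' => Real.log (vdens (fderiv ℝ N.u y'))) (npr N.u X)
      (vecF Xf (npr N.u X))| ≤ CL * ε * (m * A) := by
    refine (abs_dlog_vdens_le hCL hu2 _ _ ((K.small.slope _).trans
      (K.ε_le.trans (by norm_num)))).trans ?_
    have a1 := F.norm_vec (npr N.u X)
    have a2 : ‖D2 N.u (npr N.u X)‖ ≤ ε := v.geo.norm_D2_le _
    have a3 := K.ε_nonneg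
    gcongr
  have htn : ‖tanF N.u (vecF Xf) (npr N.u X)‖ ≤ 3 / 2 * (m * A) := by
    unfold tanF
    exact (ContinuousLinearMap.le_opNorm _ _).trans
      (mul_le_mul (v.geo.norm_dF_le _) (F.norm_vec _) (norm_nonneg _) (by norm_num))
  exact grad_arith (ck_tilt_nonneg N.u X (N.W.P_proj X)) (Real.sqrt_nonneg _) (norm_nonneg _)
    hX.2.2 (v.norm_zz_le hX.1) (by linarith) K.ε_nonneg K.ε_le K.a_pos K.a_le (abs_nonneg C)
    hCg.le hCL0 hρ (norm_nonneg _) (F.norm_vec _) hnb htn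

end Claimed.Agent.R322.Lin
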