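import Claimed.Agent.R322.Lin.LiftKit

/-!
# CO Proposition 6.1, [Q1]: the horizontal first variation (stress identity) (helper253)
-/

set_option autoImplicit false

open scoped ENNReal ContDiff Topology
open MeasureTheory

namespace Claimed.Agent.R322.Lin

open Claimed.Agent.R322.Tube Claimed.Agent.R322.Fn

variable {m n : ℕ}

namespace VK

variable {N : NCyl m n} {κ Cg : ℝ}

/-- pointwise error of [Q1] -/
theorem stress_err (v : VK N κ Cg) {Xf : Fin m → E m → ℝ} (hXf : ∀ i, ContDiff ℝ 1 (Xf i))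
    {X : E (m + n)} (hX : X ∈ Cyl N.u N.Ω N.h) {P : E (m + n) →L[ℝ] E (m + n)}
    (hP : IsProj m P) :
    |(divS N.u (vecF Xf) (npr N.u X) - ∑ i, ∑ j, pd j (Xf i) (npr N.u X)
          * inner ℝ (Bop N.u P X (dcoord N.u (npr N.u X) i)) (dcoord N.u (npr N.u X) j))
        - tdiv P (fderiv ℝ (lift N.u (vecF Xf)) X)|
      ≤ (9 / 4 * m * tilt N.u P X
          * (‖fderiv ℝ (vecF Xf) (npr N.u X)‖ * ‖fderiv ℝ N.u (npr N.u X)‖ ^ 2)
        + tilt N.u P X * (3 / 2 * κ * ‖vecF Xf (npr N.u X)‖))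
        + Cg * (κ * ‖zz N.u X‖ * tilt N.u P X * ‖nabS N.u (vecF Xf) (npr N.u X)‖
            + (Real.sqrt (DHSsq N.u (npr N.u X)) * ‖zz N.u X‖ + κ ^ 2 * ‖zz N.u X‖ ^ 2
                + κ * tilt N.u P X * ‖zz N.u X‖
                + κ ^ 2 * Real.sqrt (tilt N.u P X) * ‖zz N.u X‖) * ‖vecF Xf (npr N.u X)‖) := by
  have h1 := abs_trc_Bop_nabS_sub_le X v.geo hP
    (fun i => (hXf i).differentiable (by simp) (npr N.u X))
  have h2 := v.ltrace (vecF Xf) (contDiff_vecF hXf) X hX P hP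
  have e : ∀ d S t b : ℝ, (d - S) - t = (b - S) - (t - (d - b)) := fun d S t b => by ring
  rw [e _ _ _ (trc (Bop N.u P X ∘L nabS N.u (vecF Xf) (npr N.u X)))]
  exact (abs_sub _ _).trans (add_le_add h1 h2)

end VK

namespace SK

variable {N : NCyl m n} {R a C ε Cm : ℝ}

theorem integrable_comp_npr (h : SK N R a C ε Cm) {g : E m → ℝ} (hg : Continuous g) {B : ℝ}
    (hB : ∀ y, |g y| ≤ B) : Integrable (fun X => g (npr N.u X)) N.μ := by
  have := h.fin
  exact Integrable.of_bound (h.ok.aesm_comp_npr hg) B (Filter.Eventually.of_forall fun _ => hB _)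

theorem integral_nu (h : SK N R a C ε Cm) {g : E m → ℝ} (hg : Continuous g) :
    ∫ y, g y ∂N.nu = ∫ X, g (npr N.u X) ∂N.μ :=
  integral_map h.ok.aemeasurable_npr hg.aestronglyMeasurable

end SK

/-- data of a smooth chart field with support in `B_{R₁}` and `C¹` bound `A` -/
structure FieldData (R₁ A : ℝ) (Xf : Fin m → E m → ℝ) : Prop where
  smooth : ∀ i, ContDiff ℝ ∞ (Xf i)
  supp : ∀ i, tsupport (Xf i) ⊆ Metric.closedBall 0 R₁
  bound : ∀ i y, |Xf i y| ≤ A ∧ ‖fderiv ℝ (Xf i) y‖ ≤ A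

namespace FieldData

variable {R₁ A : ℝ} {Xf : Fin m → E m → ℝ}

theorem c1 (F : FieldData R₁ A Xf) (i : Fin m) : ContDiff ℝ 1 (Xf i) :=
  (F.smooth i).of_le (by simp)

theorem diff (F : FieldData R₁ A Xf) (y : E m) (i : Fin m) : DifferentiableAt ℝ (Xf i) y :=
  (F.c1 i).differentiable (by simp) y

theorem vec_c1 (F : FieldData R₁ A Xf) : ContDiff ℝ 1 (vecF Xf) := contDiff_vecF F.c1

theorem vec_supp (F : FieldData R₁ A Xf) : tsupport (vecF Xf) ⊆ Metric.closedBall 0 R₁ :=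
  tsupport_vecF_subset Metric.isClosed_closedBall F.supp

theorem vec_cpt (F : FieldData R₁ A Xf) : HasCompactSupport (vecF Xf) :=
  (isCompact_closedBall (0 : E m) R₁).of_isClosed_subset (isClosed_tsupport _) F.vec_supp

theorem vec_zero (F : FieldData R₁ A Xf) {y : E m} (hy : y ∉ Metric.closedBall (0 : E m) R₁) :
    vecF Xf y = 0 := image_eq_zero_of_notMem_tsupport fun h => hy (F.vec_supp h)

theorem norm_vec (F : FieldData R₁ A Xf) (y : E m) : ‖vecF Xf y‖ ≤ m * A :=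
  norm_vecF_le fun i => (F.bound i y).1

theorem norm_dvec (F : FieldData R₁ A Xf) (y : E m) : ‖fderiv ℝ (vecF Xf) y‖ ≤ m * A :=
  norm_fderiv_vecF_le (F.diff y) fun i => (F.bound i y).2

theorem mA_nonneg (F : FieldData R₁ A Xf) : 0 ≤ (m : ℝ) * A := (norm_nonneg _).trans (F.norm_vec 0)

/-- `∑ ∂_i X^i` is a test function -/
theorem isTest_div (F : FieldData R₁ A Xf) {R : ℝ} (hR : R₁ < R) :
    IsTest (Metric.ball (0 : E m) R) (fun y => ∑ i, pd i (Xf i) y) :=
  isTest_of_forall (continuous_finsetSum _ fun i _ => continuous_pd (F.c1 i) i)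
    (isCompact_closedBall _ R₁) (Metric.closedBall_subset_ball hR) fun y hy =>
    Finset.sum_eq_zero fun i _ => by
      unfold pd
      rw [fderiv_of_notMem_tsupport ℝ fun h => hy (F.supp i h)]
      rfl

/-- the remainder `D(log √g)·X` of the divergence -/
theorem isTest_rem (F : FieldData R₁ A Xf) {R : ℝ} (hR : R₁ < R) {u : E m → E n}
    (hu : ContDiff ℝ 2 u) :
    IsTest (Metric.ball (0 : E m) R)
      (fun y => fderiv ℝ (fun y' => Real.log (vdens (fderiv ℝ u y'))) y (vecF Xf y)) :=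
  isTest_of_forall (((contDiff_log_vdens_Du hu).continuous_fderiv (by simp)).clm_apply
      F.vec_c1.continuous)
    (isCompact_closedBall _ R₁) (Metric.closedBall_subset_ball hR) fun y hy => by
      rw [F.vec_zero hy, map_zero]

theorem divS_eq (F : FieldData R₁ A Xf) (u : E m → E n) (y : E m) :
    divS u (vecF Xf) y = ∑ i, pd i (Xf i) y
      + fderiv ℝ (fun y' => Real.log (vdens (fderiv ℝ u y'))) y (vecF Xf y) := by
  unfold divS
  rw [trc_fderiv_vecF (F.diff y)]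

end FieldData

/-- first variation with the lifted field -/
theorem stat_lift {N : NCyl m n} {R R₁ a C ε Cm Cg A : ℝ} (K : SK N R a C ε Cm) (v : VK N ε Cg)
    (hR : R₁ < R) {Xf : Fin m → E m → ℝ} (F : FieldData R₁ A Xf) :
    ContDiffOn ℝ 1 (lift N.u (vecF Xf)) (Cyl N.u N.Ω N.h) ∧
    Integrable (fun X => tdiv (N.W.P X) (fderiv ℝ (lift N.u (vecF Xf)) X)) N.μ ∧
      ∫ X, tdiv (N.W.P X) (fderiv ℝ (lift N.u (vecF Xf)) X) ∂N.μ = 0 := by
  have hY : ContDiffOn ℝ 1 (lift N.u (vecF Xf)) (Cyl N.u N.Ω N.h) :=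
    lk_contDiffOn_lift v.geo.c3 F.vec_c1 (v.c3_npr.of_le (by norm_num)) (v.c3_zz.of_le (by norm_num))
  exact ⟨hY, v.stat _ (Metric.closedBall 0 R₁) hY (isCompact_closedBall _ _)
    (K.small.Ω_eq ▸ Metric.closedBall_subset_ball hR)
    (fun X _ hXK => lift_eq_zero N.u (F.vec_zero hXK))⟩

theorem q_stress_core {N : NCyl m n} {R R₁ a C ε Cm Cg CL A : ℝ} (K : SK N R a C ε Cm)
    (v : VK N ε Cg) (hCg : 0 < Cg) (hCL0 : 0 ≤ CL)
    (hCL : ∀ T : E m →L[ℝ] E n, ‖T‖ ≤ 1 →
      ‖fderiv ℝ (fun T : E m →L[ℝ] E n => Real.log (vdens T)) T‖ ≤ CL)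
    (hR : R₁ < R) {Xf : Fin m → E m → ℝ} (F : FieldData R₁ A Xf) :
    |N.intM (fun y => ∑ i, pd i (Xf i) y) - ∑ i, ∑ j, bet N i j (pd j (Xf i))|
      ≤ 3 * (ε * (m * A) * (9 / 4 * m + 3 / 2 + 7 * Cg * |C| + Cg * |C| ^ 2)) * Cm * a ^ 2
        + (CL * ε * (m * A)) * (Cm * a ^ 2) := by
  have hu2 : ContDiff ℝ 2 N.u := v.geo.c2
  obtain ⟨-, hDi, hD0⟩ := stat_lift K v hR F
  have hg := F.isTest_div hR
  have hr := F.isTest_rem hR hu2
  have hM := F.mA_nonneg
  -- the divergence as a test function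
  have hdiv : (fun y => ∑ i, pd i (Xf i) y)
      + (fun y => fderiv ℝ (fun y' => Real.log (vdens (fderiv ℝ N.u y'))) y (vecF Xf y))
      = divS N.u (vecF Xf) := by
    funext y
    rw [Pi.add_apply, F.divS_eq]
  have hdT : IsTest (Metric.ball (0 : E m) R) (divS N.u (vecF Xf)) := hdiv ▸ hg.add hr
  have h1 : N.intM (divS N.u (vecF Xf)) = ∫ X, divS N.u (vecF Xf) (npr N.u X) ∂N.μ := by
    unfold NCyl.intM
    rw [divS_integral' N hu2 _ F.vec_c1 F.vec_cpt
      (F.vec_supp.trans (K.small.Ω_eq ▸ Metric.closedBall_subset_ball hR)), mul_zero, sub_zero,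
      K.integral_nu hdT.cont]
  have h2 : N.intM (fun y => ∑ i, pd i (Xf i) y)
      = ∫ X, divS N.u (vecF Xf) (npr N.u X) ∂N.μ
        - N.intM (fun y => fderiv ℝ (fun y' => Real.log (vdens (fderiv ℝ N.u y'))) y
            (vecF Xf y)) := by
    rw [← h1, ← hdiv, (K.isRadon_intM (Metric.ball 0 R)).add _ _ hg hr]
    ring
  obtain ⟨Bd, _, hBd⟩ := hdT.exists_bound
  have hId := K.integrable_comp_npr hdT.cont hBd
  have hI2 := fun i j => K.ok.integrable_weight (K.betw i j).1 (continuous_pd (F.c1 i) j)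
    fun y => (abs_pd_le (Xf i) j y).trans (F.bound i y).2
  have hS2 := integrable_finsetSum Finset.univ fun i _ =>
    integrable_finsetSum Finset.univ fun j _ => hI2 i j
  have h3 : ∑ i, ∑ j, bet N i j (pd j (Xf i)) = ∫ X, ∑ i, ∑ j, pd j (Xf i) (npr N.u X)
      * inner ℝ (Bop N.u (N.W.P X) X (dcoord N.u (npr N.u X) i)) (dcoord N.u (npr N.u X) j)
      ∂N.μ := by
    rw [integral_finsetSum _ fun i _ => integrable_finsetSum Finset.univ fun j _ => hI2 i j]
    refine Finset.sum_congr rfl fun i _ => ?_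
    rw [integral_finsetSum _ fun j _ => hI2 i j]
    rfl
  have hT : Integrable (fun X => divS N.u (vecF Xf) (npr N.u X) - ∑ i, ∑ j,
      pd j (Xf i) (npr N.u X)
      * inner ℝ (Bop N.u (N.W.P X) X (dcoord N.u (npr N.u X) i)) (dcoord N.u (npr N.u X) j))
      N.μ := hId.sub hS2
  have e : N.intM (fun y => ∑ i, pd i (Xf i) y) - ∑ i, ∑ j, bet N i j (pd j (Xf i))
      = ∫ X, ((divS N.u (vecF Xf) (npr N.u X) - ∑ i, ∑ j, pd j (Xf i) (npr N.u X)
          * inner ℝ (Bop N.u (N.W.P X) X (dcoord N.u (npr N.u X) i)) (dcoord N.u (npr N.u X) j))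
          - tdiv (N.W.P X) (fderiv ℝ (lift N.u (vecF Xf)) X)) ∂N.μ
        - N.intM (fun y => fderiv ℝ (fun y' => Real.log (vdens (fderiv ℝ N.u y'))) y
            (vecF Xf y)) := by
    rw [integral_sub hT hDi, hD0, sub_zero, integral_sub hId hS2, h2, h3]
    ring
  rw [e]
  refine (abs_sub _ _).trans (add_le_add ?_ ?_)
  · refine K.abs_integral_le_err (K.ae.mono fun X hX => ?_) (by
      have := K.ε_nonneg
      positivity)
    refine (v.stress_err F.c1 hX.1 (N.W.P_proj X)).trans ?_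
    have h1 := K.small.curv _ hX.2.1
    have hn := norm_nonneg (HS N.u (npr N.u X))
    have hnb : ‖nabS N.u (vecF Xf) (npr N.u X)‖ ≤ 4 * (m * A) := by
      refine (norm_nabS_le v.geo (F.vec_c1.differentiable (by simp) _)).trans ?_
      have a1 := F.norm_vec (npr N.u X)
      have a2 := F.norm_dvec (npr N.u X)
      have a3 : 3 / 2 * ε * ‖vecF Xf (npr N.u X)‖ ≤ 3 / 2 * (1 / 2) * (m * A) := by
        have := K.ε_le
        have := K.ε_nonneg
        gcongr
      linarith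
    exact stress_arith (Nat.cast_nonneg m) (ck_tilt_nonneg N.u X (N.W.P_proj X))
      (Real.sqrt_nonneg _) (norm_nonneg _) hX.2.2 (by linarith) (norm_nonneg _)
      (K.small.slope _) K.ε_nonneg K.ε_le K.a_pos K.a_le (abs_nonneg C) hCg.le (norm_nonneg _)
      (F.norm_dvec _) (norm_nonneg _) (F.norm_vec _) (norm_nonneg _) hnb
  · refine K.abs_intM_le hr fun y => ?_
    refine (abs_dlog_vdens_le hCL hu2 y _ ((K.small.slope y).trans
      (K.ε_le.trans (by norm_num)))).trans ?_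
    have a1 := F.norm_vec y
    have a2 : ‖D2 N.u y‖ ≤ ε := v.geo.norm_D2_le y
    have a3 := K.ε_nonneg
    gcongr

end Claimed.Agent.R322.Lin
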