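import Claimed.Agent.R322.Lin.Quant
import Claimed.Agent.R322.Pack044
import Claimed.Agent.R322.Tube.Units
import Claimed.Agent.R322.Pack050

/-!
# CO Proposition 6.1: `2 𝔪 ≤ d₀` and `|𝔪| ≤ C d₀` before the limit (leaves S0-S3)

Instead of a slowly varying dilation `d_i' ↓ 0` we FIX the unit `t ∈ (0,1]`: the geometric error is
then `Λ_t ≤ (C t² + o(1)) a_i²`, and `t` is sent to `0` after `i → ∞` (see `Lin.Main`).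

* `s_til`   : `∫ g dD = til N g`, `∫ g dΛ_t ≤ sup g · Λ_t(B_R)`.
* `s_units` : bound of `Λ_t (B_R)` for one cylinder.
* `s_sign`  : cells of radius `λ = a^ζ`, `ζ = 1/(2m)`, exponent `κ = 1/(8m)`, budgets
  `b_k = max (C λ^{-m} τ(5 B_k)) a³`, `T_k = - log b_k`; `Tube.signed_excess_units` with the
  weights `w_k = χ_k g / A'`, `A' = (C_pou + 2) A`; sum with `Tool.grid_overlap_sum`
  (`∑ λ^m b_k ≤ C a²`), `sup_{T ≥ T_min} ρ(T) → 0`.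
* `s_abs`   : fixed fine cells of radius `λ`, `Tube.scalar_abs_units` on each of them,
  `|M(χ_k g)| ≤ sup_{B_k} g · |M|(B_k)`, `sup_{B_k} g ≤ inf_{2 B_k} g + 4 A λ`.
-/

set_option autoImplicit false

open scoped ENNReal ContDiff
open MeasureTheory

namespace Claimed.Agent.R322.Lin

open Claimed.Agent.R322.Tube Claimed.Agent.R322.Fn

variable {m n : ℕ}

/-- [S0] integrals against the pushed-forward measures. -/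
theorem s_til (m n Q : ℕ) (R : ℝ) (hR : 0 < R) :
    ∃ h₀ : ℝ, 0 < h₀ ∧ ∀ C : ℝ, ∃ ε₁ : ℝ, 0 < ε₁ ∧ ∀ (N : NCyl m n) (a ε : ℝ), N.Q = Q → N.h ≤ h₀ →
      0 < a → a ≤ 1 → 0 ≤ ε → ε ≤ ε₁ → Small N R a C ε →
      ∀ (g : E m → ℝ), IsTest (Metric.ball 0 R) g →
        ∫ y, g y ∂N.Dm = til N g ∧
        ∀ (t B : ℝ), 0 < t → (∀ y, |g y| ≤ B) →
          |∫ y, g y ∂(N.LmU t)| ≤ B * ((N.LmU t) (Metric.ball 0 R)).toReal := by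
  obtain ⟨h₀, hh₀, H⟩ := exists_kit m n Q R hR
  refine ⟨h₀, hh₀, fun C => ?_⟩
  obtain ⟨Cm, hCm, H⟩ := H C
  refine ⟨1 / 2, by norm_num, fun N a ε hQ hh ha ha1 hε hε1 hS g hg => ?_⟩
  have K := H N a ε hQ hh ha ha1 hε hε1 hS
  refine ⟨K.ok.integral_push K.ok.aesm_tilt
    (Filter.Eventually.of_forall fun X => ck_tilt_nonneg N.u X (N.W.P_proj X)) hg.cont,
    fun t B ht hB => ?_⟩
  rw [← hS.Ω_eq]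
  exact K.ok.abs_integral_push_le _ ((K.LmU_le ht).trans_lt ENNReal.ofReal_lt_top) hB

/-- [S1] the geometric error in units `t`: `Λ_t(B_R) ≤ C' (t² + t⁻⁴ ε²) a²`. -/
theorem s_units (m n Q : ℕ) (R : ℝ) (hR : 0 < R) :
    ∃ h₀ : ℝ, 0 < h₀ ∧ ∀ C : ℝ, ∃ ε₁ C' : ℝ, 0 < ε₁ ∧ 0 < C' ∧ ∀ (N : NCyl m n) (a ε : ℝ), N.Q = Q → N.h ≤ h₀ →
      0 < a → a ≤ 1 → 0 ≤ ε → ε ≤ ε₁ → Small N R a C ε →
      ∀ t : ℝ, 0 < t → t ≤ 1 →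
        (N.LmU t) (Metric.ball 0 R) ≤ ENNReal.ofReal (C' * (t ^ 2 + (t ^ 4)⁻¹ * ε ^ 2) * a ^ 2) := by
  obtain ⟨h₀, hh₀, H⟩ := exists_kit m n Q R hR
  refine ⟨h₀, hh₀, fun C => ?_⟩
  obtain ⟨Cm, hCm, H⟩ := H C
  refine ⟨1 / 2, (C ^ 2 + 2) * Cm, by norm_num, by positivity,
    fun N a ε hQ hh ha ha1 hε hε1 hS t ht ht1 => ?_⟩
  have K := H N a ε hQ hh ha ha1 hε hε1 hS
  rw [← hS.Ω_eq]
  unfold NCyl.LmU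
  rw [K.ok.push_Ω]
  refine (K.LmU_le ht).trans (ENNReal.ofReal_le_ofReal ?_)
  have h1 : (t ^ 2)⁻¹ ≤ (t ^ 4)⁻¹ :=
    inv_anti₀ (by positivity) (pow_le_pow_of_le_one ht.le ht1 (by norm_num))
  have h2 : t ^ 2 * C ^ 2 + (t ^ 2)⁻¹ * ε ^ 2 + (t ^ 4)⁻¹ * ε ^ 2
      ≤ (C ^ 2 + 2) * (t ^ 2 + (t ^ 4)⁻¹ * ε ^ 2) := by
    have h3 : (t ^ 2)⁻¹ * ε ^ 2 ≤ (t ^ 4)⁻¹ * ε ^ 2 := mul_le_mul_of_nonneg_right h1 (sq_nonneg _)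
    have h4 : 0 ≤ (t ^ 4)⁻¹ * ε ^ 2 := by positivity
    nlinarith [sq_nonneg C, sq_nonneg t, mul_nonneg (sq_nonneg C) h4]
  calc (t ^ 2 * C ^ 2 + (t ^ 2)⁻¹ * ε ^ 2 + (t ^ 4)⁻¹ * ε ^ 2) * a ^ 2 * Cm
      ≤ ((C ^ 2 + 2) * (t ^ 2 + (t ^ 4)⁻¹ * ε ^ 2)) * a ^ 2 * Cm := by gcongr
    _ = _ := by ring

/-- [S2] **signed excess summed over cells of radius `a^ζ`.**  `om a → 0` as `a → 0`. -/
theorem s_sign (m n Q : ℕ) (hm : 1 ≤ m) (hn : 1 ≤ n) (hQ : 1 ≤ Q) (R R₁ : ℝ) (hR₁ : 0 < R₁)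
    (hR : R₁ < R) :
    ∃ (J : ℕ) (ε₀ h₀ CQ : ℝ), 0 < ε₀ ∧ 0 < h₀ ∧ 0 < CQ ∧ ∀ C : ℝ, ∃ om : ℝ → ℝ,
      Filter.Tendsto om (nhdsWithin 0 (Set.Ioi 0)) (nhds 0) ∧
      ∀ (N : NCyl m n) (a t : ℝ), N.Q = Q → N.Ω = Metric.ball 0 R → N.h ≤ h₀ → 0 < a → a ≤ 1 →
        0 < t → t ≤ 1 → RefGraphU t J 1 ε₀ N.u →
        (N.Mabs + N.Dm + N.LmU t) (Metric.ball 0 R) ≤ ENNReal.ofReal (C * a ^ 2) →
        (∀ X ∈ N.W.support, X ∈ Cyl N.u N.Ω N.h → ‖zz N.u X‖ ≤ C * a) →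
        ∀ (g : E m → ℝ) (A : ℝ), (∀ y, 0 ≤ g y ∧ g y ≤ A) → (∀ y y', |g y - g y'| ≤ A * ‖y - y'‖) →
          tsupport g ⊆ Metric.closedBall 0 R₁ →
          2 * N.intM g - ∫ y, g y ∂N.Dm - CQ * ∫ y, g y ∂(N.LmU t) ≤ om a * a ^ 2 * A := by
  have hκ : (0 : ℝ) < (((8 * m : ℕ) : ℝ))⁻¹ := by
    have : 0 < 8 * m := by omega
    positivity
  obtain ⟨J₁, HJ⟩ := Tube.signed_excess_units m n Q hm hn hQ _ hκ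
  obtain ⟨ε₁, h₁, CQ, T₀, ρ, hε₁, hh₁, hCQ, -, hρ, H⟩ := HJ 1 le_rfl
  obtain ⟨J, ε₀, h₀, hε₀, hh₀, Hc⟩ := sgn_sign_core m n Q hm R R₁ hR₁ hR J₁ ε₁ h₁ CQ T₀ ρ hε₁ hh₁
    hCQ (by simpa using hρ 0) H
  exact ⟨J, ε₀, h₀, CQ, hε₀, hh₀, hCQ, Hc⟩

/-- [S3] **absolute bound summed over fixed fine cells of radius `λ`.** -/
theorem s_abs (m n Q : ℕ) (hm : 1 ≤ m) (hn : 1 ≤ n) (hQ : 1 ≤ Q) (R R₁ : ℝ) (hR₁ : 0 < R₁)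
    (hR : R₁ < R) :
    ∃ (J : ℕ) (ε₀ h₀ C₂ : ℝ), 0 < ε₀ ∧ 0 < h₀ ∧ 0 < C₂ ∧
      ∀ C lam : ℝ, 0 < lam → ∃ a₀ : ℝ, 0 < a₀ ∧
      ∀ (N : NCyl m n) (a t : ℝ), N.Q = Q → N.Ω = Metric.ball 0 R → N.h ≤ h₀ → 0 < a → a ≤ a₀ →
        0 < t → t ≤ 1 → RefGraphU t J 1 ε₀ N.u →
        (N.Mabs + N.Dm + N.LmU t) (Metric.ball 0 R) ≤ ENNReal.ofReal (C * a ^ 2) →
        ∀ (g : E m → ℝ) (A : ℝ), (∀ y, 0 ≤ g y ∧ g y ≤ A) → (∀ y y', |g y - g y'| ≤ A * ‖y - y'‖) →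
          tsupport g ⊆ Metric.closedBall 0 R₁ →
          |N.intM g| ≤ C₂ * (∫ y, g y ∂N.Dm + ∫ y, g y ∂(N.LmU t) + A * lam * a ^ 2) := by
  obtain ⟨J₁, HJ⟩ := Tube.scalar_abs_units m n hm hn Q 2 (by norm_num)
  obtain ⟨ε₁, h₁, εs, Cs, hε₁, hh₁, hεs, hCs, H⟩ := HJ 1 le_rfl
  exact sgn_abs_core m n Q R R₁ hR₁ hR J₁ ε₁ h₁ εs Cs hε₁ hh₁ hεs hCs H

end Claimed.Agent.R322.Lin
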